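import Crest.Agent.N336.R.Defs
import Crest.Agent.N336.Eng.Pure
import Crest.Agent.N336.R.Mat

-- ▼ part N336/R/Tens0
section

/-! # Row 336, replica package: tensor powers (proofs, helper31) -/

set_option autoImplicit false
set_option linter.unusedSectionVars false

open Matrix Finset MeasureTheory Filter
open scoped ComplexOrder MatrixOrder Matrix.Norms.L2Operator InnerProductSpace Topology

namespace Crest.Agent.N336.R

open Crest.Agent.N336.Q Crest.Agent.N336.Eng Crest.Agent.N336.C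

attribute [local irreducible] ev eU

namespace Tn
end Tn

open Tn

variable {n : Type} [Fintype n] [DecidableEq n] {k : ℕ} {A B : Matrix n n ℂ}

/-! ### products of different factors -/

lemma Tn.tpf_apply (B : Fin k → Matrix n n ℂ) (σ τ : Fin k → n) :
    tpf B σ τ = ∏ i, B i (σ i) (τ i) := rfl

lemma Tn.tp_apply (k : ℕ) (B : Matrix n n ℂ) (σ τ : Fin k → n) :
    tp k B σ τ = ∏ i, B (σ i) (τ i) := rfl

lemma tpf_mul (A B : Fin k → Matrix n n ℂ) : tpf A * tpf B = tpf fun i => A i * B i := by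
  ext σ τ
  simp only [mul_apply, tpf_apply, Finset.prod_univ_sum, Fintype.piFinset_univ,
    Finset.prod_mul_distrib]

lemma Tn.tpf_diagonal (l : Fin k → n → ℂ) :
    tpf (fun i => diagonal (l i)) = diagonal fun σ => ∏ i, l i (σ i) := by
  ext σ τ
  rw [tpf_apply, diagonal_apply]
  split_ifs with h
  · subst h; simp
  · obtain ⟨i, hi⟩ := Function.ne_iff.1 h
    exact Finset.prod_eq_zero (mem_univ i) (diagonal_apply_ne _ hi)

lemma Tn.tpf_one : tpf (fun _ : Fin k => (1 : Matrix n n ℂ)) = 1 := by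
  have := tpf_diagonal (k := k) (n := n) fun _ _ => 1
  simpa using this

lemma Tn.tpf_conjTranspose (B : Fin k → Matrix n n ℂ) : (tpf B)ᴴ = tpf fun i => (B i)ᴴ := by
  ext σ τ
  simp only [conjTranspose_apply, tpf_apply, star_prod]

lemma Tn.tpf_update_apply (B : Fin k → Matrix n n ℂ) (i : Fin k) (X : Matrix n n ℂ)
    (σ τ : Fin k → n) : tpf (Function.update B i X) σ τ =
      X (σ i) (τ i) * ∏ j ∈ univ.erase i, B j (σ j) (τ j) := by
  rw [tpf_apply, ← Finset.mul_prod_erase _ _ (mem_univ i), Function.update_self]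
  congr 1
  exact Finset.prod_congr rfl fun j hj => by rw [Function.update_of_ne (ne_of_mem_erase hj)]

lemma Tn.tpf_update_add (B : Fin k → Matrix n n ℂ) (i : Fin k) (X Y : Matrix n n ℂ) :
    tpf (Function.update B i (X + Y)) =
      tpf (Function.update B i X) + tpf (Function.update B i Y) := by
  ext σ τ
  simp only [Matrix.add_apply, tpf_update_apply, add_mul]

lemma Tn.tpf_update_smul (B : Fin k → Matrix n n ℂ) (i : Fin k) (c : ℂ) (X : Matrix n n ℂ) :
    tpf (Function.update B i (c • X)) = c • tpf (Function.update B i X) := by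
  ext σ τ
  simp only [Matrix.smul_apply, tpf_update_apply, smul_eq_mul, mul_assoc]

lemma Tn.exists_sq (h : A.PosSemidef) : ∃ C : Matrix n n ℂ, A = Cᴴ * C := by
  refine ⟨fr Real.sqrt A, ?_⟩
  rw [(fr_isHermitian _ _).eq, fc_mul]
  conv_lhs => rw [← fc_id h.1]
  exact fc_congr fun i => by rw [← Complex.ofReal_mul, Real.mul_self_sqrt (ev_nonneg h i)]

lemma Tn.tpf_posSemidef {B : Fin k → Matrix n n ℂ} (h : ∀ i, (B i).PosSemidef) :
    (tpf B).PosSemidef := by
  choose C hC using fun i => exists_sq (h i)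
  rw [funext hC, ← tpf_mul, ← tpf_conjTranspose]
  exact posSemidef_conjTranspose_mul_self _

lemma Tn.tpf_mono {A B : Fin k → Matrix n n ℂ} (hA : ∀ i, (A i).PosSemidef) (h : ∀ i, A i ≤ B i) :
    tpf A ≤ tpf B := by
  have hB : ∀ i, (B i).PosSemidef := fun i => ((hA i).nonneg.trans (h i)).posSemidef
  have key : ∀ s : Finset (Fin k), tpf A ≤ tpf (s.piecewise B A) := by
    intro s
    induction s using Finset.induction_on with
    | empty => simp
    | insert a s ha ih =>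
      refine ih.trans ?_
      rw [piecewise_insert, show B a = A a + (B a - A a) by abel, tpf_update_add,
        ← piecewise_eq_of_notMem s B A ha, Function.update_eq_self, le_add_iff_nonneg_right]
      refine (tpf_posSemidef fun i => ?_).nonneg
      rcases eq_or_ne i a with rfl | hi
      · rw [Function.update_self, piecewise_eq_of_notMem s B A ha]
        exact Matrix.le_iff.1 (h i)
      · rw [Function.update_of_ne hi]
        by_cases his : i ∈ s
        · rw [piecewise_eq_of_mem _ _ _ his]; exact hB i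
        · rw [piecewise_eq_of_notMem _ _ _ his]; exact hA i
  simpa using key univ

lemma Tn.tpf_smul (c : Fin k → ℂ) (B : Fin k → Matrix n n ℂ) :
    tpf (fun i => c i • B i) = (∏ i, c i) • tpf B := by
  ext σ τ
  simp only [tpf_apply, Matrix.smul_apply, smul_eq_mul, Finset.prod_mul_distrib]

lemma Tn.re_inner_smul_one (c : ℝ) (v : Q.Vec n) :
    (⟪v, ap ((c : ℂ) • (1 : Matrix n n ℂ)) v⟫_ℂ).re = c * ‖v‖ ^ 2 := by
  have := qf_smul c (1 : Matrix n n ℂ) v
  rwa [qf_one] at this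

lemma Tn.sq_le_smul_one {c : ℝ} (h : ‖A‖ ≤ c) : Aᴴ * A ≤ ((c ^ 2 : ℝ) : ℂ) • (1 : Matrix n n ℂ) := by
  rw [Matrix.le_iff]
  refine posSemidef_of_re_inner ?_ fun v => ?_
  · refine IsHermitian.sub ?_ (isHermitian_conjTranspose_mul_self A)
    unfold IsHermitian
    rw [conjTranspose_smul, conjTranspose_one, Complex.star_def, Complex.conj_ofReal]
  · rw [ap_sub, inner_sub_right, Complex.sub_re, re_inner_smul_one, ← norm_ap_sq, sub_nonneg,
      ← mul_pow]
    exact pow_le_pow_left₀ (norm_nonneg _)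
      ((norm_ap_le A v).trans (mul_le_mul_of_nonneg_right h (norm_nonneg _))) 2

lemma Tn.norm_tpf_le {B : Fin k → Matrix n n ℂ} {c : Fin k → ℝ} (h : ∀ i, ‖B i‖ ≤ c i) :
    ‖tpf B‖ ≤ ∏ i, c i := by
  have hc : 0 ≤ ∏ i, c i := Finset.prod_nonneg fun i _ => (norm_nonneg _).trans (h i)
  have h1 := tpf_mono (fun i => posSemidef_conjTranspose_mul_self (B i))
    fun i => sq_le_smul_one (h i)
  rw [← tpf_mul, ← tpf_conjTranspose, tpf_smul, tpf_one, ← Complex.ofReal_prod,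
    Finset.prod_pow] at h1
  rw [← norm_ap]
  refine ContinuousLinearMap.opNorm_le_bound _ hc fun v => ?_
  have h2 := re_inner_ap_mono h1 v
  rw [← norm_ap_sq, re_inner_smul_one, ← mul_pow] at h2
  exact (pow_le_pow_iff_left₀ (norm_nonneg _) (by positivity) two_ne_zero).1 h2

/-- product of different vectors -/
def Tn.tvf (χ : Fin k → Q.Vec n) : Q.Vec (Fin k → n) := WithLp.toLp 2 fun σ => ∏ i, χ i (σ i)

lemma Tn.tvf_apply (χ : Fin k → Q.Vec n) (σ : Fin k → n) : tvf χ σ = ∏ i, χ i (σ i) := rfl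

lemma Tn.tv_apply (k : ℕ) (χ : Q.Vec n) (σ : Fin k → n) : tv k χ σ = ∏ i, χ (σ i) := rfl

lemma Tn.tv_eq (k : ℕ) (χ : Q.Vec n) : tv k χ = tvf fun _ => χ := rfl

lemma Tn.ap_tpf_tvf (B : Fin k → Matrix n n ℂ) (χ : Fin k → Q.Vec n) :
    ap (tpf B) (tvf χ) = tvf fun i => ap (B i) (χ i) := by
  ext σ
  simp only [ap_apply, tpf_apply, tvf_apply, Finset.prod_univ_sum, Fintype.piFinset_univ,
    Finset.prod_mul_distrib]

lemma Tn.inner_tvf (χ χ' : Fin k → Q.Vec n) : ⟪tvf χ, tvf χ'⟫_ℂ = ∏ i, ⟪χ i, χ' i⟫_ℂ := by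
  simp only [inner_eq_sum, tvf_apply, Finset.prod_univ_sum, Fintype.piFinset_univ,
    Finset.prod_mul_distrib, star_prod]

lemma Tn.tvf_smul (c : Fin k → ℂ) (χ : Fin k → Q.Vec n) :
    tvf (fun i => c i • χ i) = (∏ i, c i) • tvf χ := by
  ext σ
  simp only [tvf_apply, PiLp.smul_apply, smul_eq_mul, Finset.prod_mul_distrib]

/-! ### tensor powers -/

lemma tp_mul (k : ℕ) (A B : Matrix n n ℂ) : tp k (A * B) = tp k A * tp k B :=
  (tpf_mul _ _).symm

lemma tp_one (k : ℕ) : tp k (1 : Matrix n n ℂ) = 1 := tpf_one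

lemma tp_conjTranspose (k : ℕ) (A : Matrix n n ℂ) : tp k Aᴴ = (tp k A)ᴴ :=
  (tpf_conjTranspose _).symm

lemma tp_smul (k : ℕ) (c : ℂ) (A : Matrix n n ℂ) : tp k (c • A) = c ^ k • tp k A := by
  have := tpf_smul (fun _ : Fin k => c) fun _ => A
  simpa [tp] using this

lemma tp_rsmul (k : ℕ) (c : ℝ) (A : Matrix n n ℂ) : tp k (c • A) = c ^ k • tp k A := by
  rw [← Complex.coe_smul, tp_smul, ← Complex.coe_smul, Complex.ofReal_pow]

lemma tp_isHermitian (k : ℕ) (h : A.IsHermitian) : (tp k A).IsHermitian := by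
  unfold IsHermitian
  rw [← tp_conjTranspose, h.eq]

lemma tp_posSemidef (k : ℕ) (h : A.PosSemidef) : (tp k A).PosSemidef :=
  tpf_posSemidef fun _ => h

lemma Tn.tp_mul_eq_one (k : ℕ) (h : A * B = 1) : tp k A * tp k B = 1 := by
  rw [← tp_mul, h, tp_one]

lemma tp_posDef (k : ℕ) (h : A.PosDef) : (tp k A).PosDef :=
  (tp_posSemidef k h.posSemidef).posDef_iff_isUnit.2 (IsUnit.of_mul_eq_one _
    (tp_mul_eq_one k (mul_nonsing_inv A ((isUnit_iff_isUnit_det A).1 h.isUnit))))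

lemma tp_mono (k : ℕ) (hA : A.PosSemidef) (h : A ≤ B) : tp k A ≤ tp k B :=
  tpf_mono (fun _ => hA) fun _ => h


lemma tp_commute (k : ℕ) (h : Commute A B) : Commute (tp k A) (tp k B) := by
  unfold Commute SemiconjBy
  rw [← tp_mul, h.eq, tp_mul]

lemma norm_tp_le (k : ℕ) (A : Matrix n n ℂ) : ‖tp k A‖ ≤ ‖A‖ ^ k := by
  simpa [tp] using norm_tpf_le (B := fun _ : Fin k => A) fun _ => le_rfl

lemma continuous_tp (k : ℕ) : Continuous (tp k : Matrix n n ℂ → Mk k n) :=
  continuous_matrix fun σ τ => by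
    simp only [tp_apply]
    exact continuous_finsetProd _ fun i _ => continuous_id.matrix_elem (σ i) (τ i)

lemma ap_tp_tv (k : ℕ) (A : Matrix n n ℂ) (χ : Q.Vec n) :
    ap (tp k A) (tv k χ) = tv k (ap A χ) := ap_tpf_tvf _ _

lemma inner_tv (k : ℕ) (χ χ' : Q.Vec n) : ⟪tv k χ, tv k χ'⟫_ℂ = ⟪χ, χ'⟫_ℂ ^ k := by
  rw [tv_eq, tv_eq, inner_tvf]; simp

lemma norm_tv (k : ℕ) (χ : Q.Vec n) : ‖tv k χ‖ = ‖χ‖ ^ k := by
  have h := inner_tv k χ χ
  rw [inner_self_eq_norm_sq_to_K, inner_self_eq_norm_sq_to_K, ← pow_mul, mul_comm, pow_mul] at h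
  have h2 : ‖tv k χ‖ ^ 2 = (‖χ‖ ^ k) ^ 2 := by exact_mod_cast h
  exact (pow_left_inj₀ (norm_nonneg _) (by positivity) two_ne_zero).1 h2


lemma continuous_tv (k : ℕ) : Continuous (tv k : Q.Vec n → Q.Vec (Fin k → n)) := by
  unfold tv
  fun_prop

lemma tp_pj (k : ℕ) (χ : Q.Vec n) : tp k (pj χ) = pj (tv k χ) := by
  ext σ τ
  simp only [tp_apply, kb_apply, tv_apply, Finset.prod_mul_distrib, star_prod]

lemma qf_tv_tp (k : ℕ) (h : A.IsHermitian) (χ : Q.Vec n) :
    qf (tv k χ) (tp k A) = qf χ A ^ k := by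
  have h1 : ⟪χ, ap A χ⟫_ℂ = (qf χ A : ℂ) :=
    Complex.ext (by simp) (by rw [im_inner_ap h, Complex.ofReal_im])
  rw [qf, ap_tp_tv, inner_tv, h1, ← Complex.ofReal_pow, Complex.ofReal_re]

/-! ### second quantisation -/

lemma dG_add (k : ℕ) (A B : Matrix n n ℂ) : dG k (A + B) = dG k A + dG k B := by
  simp only [dG, tpf_update_add, Finset.sum_add_distrib]

lemma dG_smul (k : ℕ) (c : ℂ) (A : Matrix n n ℂ) : dG k (c • A) = c • dG k A := by
  simp only [dG, tpf_update_smul, Finset.smul_sum]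

lemma dG_rsmul (k : ℕ) (c : ℝ) (A : Matrix n n ℂ) : dG k (c • A) = c • dG k A := by
  rw [← Complex.coe_smul, dG_smul, Complex.coe_smul]

lemma Tn.dG_zero (k : ℕ) : dG k (0 : Matrix n n ℂ) = 0 := by
  simpa using dG_smul k 0 (0 : Matrix n n ℂ)

lemma dG_sum {α : Type*} (k : ℕ) (s : Finset α) (A : α → Matrix n n ℂ) :
    dG k (∑ a ∈ s, A a) = ∑ a ∈ s, dG k (A a) := by
  classical
  induction s using Finset.induction_on with
  | empty => simp [dG_zero]
  | insert a s ha ih => rw [Finset.sum_insert ha, Finset.sum_insert ha, dG_add, ih]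

lemma Tn.upd_cases {p : Matrix n n ℂ → Prop} (h1 : p 1) (hA : p A) (i j : Fin k) :
    p (Function.update (fun _ => (1 : Matrix n n ℂ)) i A j) := by
  rcases eq_or_ne j i with rfl | h
  · rwa [Function.update_self]
  · rwa [Function.update_of_ne h]

lemma dG_conjTranspose (k : ℕ) (A : Matrix n n ℂ) : dG k Aᴴ = (dG k A)ᴴ := by
  simp only [dG, conjTranspose_sum, tpf_conjTranspose]
  refine Finset.sum_congr rfl fun i _ => congrArg tpf (funext fun j => ?_)
  rcases eq_or_ne j i with rfl | h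
  · simp
  · simp [h]

lemma dG_isHermitian (k : ℕ) (h : A.IsHermitian) : (dG k A).IsHermitian := by
  unfold IsHermitian
  rw [← dG_conjTranspose, h.eq]

lemma dG_posSemidef (k : ℕ) (h : A.PosSemidef) : (dG k A).PosSemidef :=
  (Finset.sum_nonneg fun i _ =>
    (tpf_posSemidef (upd_cases PosSemidef.one h i)).nonneg).posSemidef


lemma ap_dG_tv (k : ℕ) {χ : Q.Vec n} {c : ℂ} (h : ap A χ = c • χ) :
    ap (dG k A) (tv k χ) = (k * c) • tv k χ := by
  have key : ∀ i : Fin k,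
      ap (tpf (Function.update (fun _ => 1) i A)) (tv k χ) = c • tv k χ := by
    intro i
    have := tvf_smul (Function.update (fun _ => 1) i c) fun _ => χ
    rw [Finset.prod_update_of_mem (mem_univ i), Finset.prod_const_one, mul_one] at this
    rw [tv_eq, ap_tpf_tvf, ← this]
    refine congrArg tvf (funext fun j => ?_)
    rcases eq_or_ne j i with rfl | hj
    · simp [h]
    · simp [hj]
  rw [dG, ap_sum]
  simp only [key, Finset.sum_const, card_univ, Fintype.card_fin, mul_smul]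
  rw [Nat.cast_smul_eq_nsmul]

lemma inner_tv_dG (k : ℕ) (A : Matrix n n ℂ) {χ : Q.Vec n} (h : ‖χ‖ = 1) :
    ⟪tv k χ, ap (dG k A) (tv k χ)⟫_ℂ = k * ⟪χ, ap A χ⟫_ℂ := by
  have hχ : ⟪χ, χ⟫_ℂ = 1 := by rw [inner_self_eq_norm_sq_to_K, h]; simp
  have key : ∀ i : Fin k, ⟪tv k χ, ap (tpf (Function.update (fun _ => 1) i A)) (tv k χ)⟫_ℂ =
      ⟪χ, ap A χ⟫_ℂ := by
    intro i
    rw [tv_eq, ap_tpf_tvf, inner_tvf, Finset.prod_eq_single i, Function.update_self]
    · intro j _ hj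
      rw [Function.update_of_ne hj, ap_one, hχ]
    · simp
  rw [dG, ap_sum, inner_sum]
  simp [key]

/-- intertwining relation -/
lemma Tn.tp_mul_dG_of (k : ℕ) {A' : Matrix n n ℂ} (h : B * A = A' * B) :
    tp k B * dG k A = dG k A' * tp k B := by
  simp only [dG, tp, Matrix.mul_sum, Matrix.sum_mul, tpf_mul]
  refine Finset.sum_congr rfl fun i _ => congrArg tpf (funext fun j => ?_)
  rcases eq_or_ne j i with rfl | hj
  · simp [h]
  · simp [hj]

lemma tp_mul_dG (k : ℕ) {B' : Matrix n n ℂ} (h : B' * B = 1) (A : Matrix n n ℂ) :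
    tp k B * dG k A = dG k (B * A * B') * tp k B :=
  tp_mul_dG_of k (by rw [Matrix.mul_assoc, h, Matrix.mul_one])

lemma dG_mul_tp (k : ℕ) {B' : Matrix n n ℂ} (h : B * B' = 1) (A : Matrix n n ℂ) :
    dG k A * tp k B = tp k B * dG k (B' * A * B) :=
  (tp_mul_dG_of k (by rw [← Matrix.mul_assoc, ← Matrix.mul_assoc, h, Matrix.one_mul])).symm

lemma commute_dG_tp (k : ℕ) (h : Commute A B) : Commute (dG k A) (tp k B) :=
  (tp_mul_dG_of k h.symm.eq).symm

/-! ### spectral forms -/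

lemma Tn.tU1 (k : ℕ) (A : Matrix n n ℂ) : (tp k (eU A))ᴴ * tp k (eU A) = 1 := by
  rw [← tp_conjTranspose, tp_mul_eq_one k (star_mul_eU A)]

lemma Tn.tU2 (k : ℕ) (A : Matrix n n ℂ) : tp k (eU A) * (tp k (eU A))ᴴ = 1 := by
  rw [← tp_conjTranspose, tp_mul_eq_one k (eU_mul_star A)]

lemma Tn.tp_fc (k : ℕ) (f : ℝ → ℂ) (A : Matrix n n ℂ) : tp k (fc f A) =
    tp k (eU A) * diagonal (fun σ => ∏ i, f (ev A (σ i))) * (tp k (eU A))ᴴ := by
  rw [fc, tp_mul, tp_mul, tp_conjTranspose, ← tpf_diagonal fun _ j => f (ev A j)]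
  rfl

lemma Tn.dG_diagonal (k : ℕ) (l : n → ℂ) :
    dG k (diagonal l) = diagonal fun σ => ∑ i, l (σ i) := by
  have key : ∀ i : Fin k, tpf (Function.update (fun _ => 1) i (diagonal l)) =
      diagonal fun σ => l (σ i) := by
    intro i
    have := tpf_diagonal (Function.update (fun _ _ => 1) i l)
    have e : ∀ σ : Fin k → n, ∏ j, Function.update (fun _ _ => (1 : ℂ)) i l j (σ j) = l (σ i) := by
      intro σ
      rw [Finset.prod_eq_single i, Function.update_self]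
      · intro j _ hj
        rw [Function.update_of_ne hj]
      · simp
    simp only [e] at this
    rw [← this]
    refine congrArg tpf (funext fun j => ?_)
    rcases eq_or_ne j i with rfl | hj
    · simp
    · simp [hj]
  ext σ τ
  simp only [dG, key, Matrix.sum_apply, diagonal_apply]
  split_ifs <;> simp

lemma Tn.dG_fc (k : ℕ) (f : ℝ → ℂ) (A : Matrix n n ℂ) : dG k (fc f A) =
    tp k (eU A) * diagonal (fun σ => ∑ i, f (ev A (σ i))) * (tp k (eU A))ᴴ := by
  rw [← dG_diagonal k fun j => f (ev A j), tp_mul_dG k (star_mul_eU A), Matrix.mul_assoc, tU2,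
    Matrix.mul_one, fc]

lemma Tn.fc_dG (k : ℕ) (f : ℝ → ℂ) (h : A.IsHermitian) : fc f (dG k A) =
    tp k (eU A) * diagonal (fun σ => f (∑ i, ev A (σ i))) * (tp k (eU A))ᴴ := by
  rw [← fc_spec f (tU1 k A) (tU2 k A)]
  conv_lhs => rw [← fc_id h, dG_fc]
  simp only [Complex.ofReal_sum]

lemma Tn.fc_tp (k : ℕ) (f : ℝ → ℂ) (h : A.IsHermitian) : fc f (tp k A) =
    tp k (eU A) * diagonal (fun σ => f (∏ i, ev A (σ i))) * (tp k (eU A))ᴴ := by
  rw [← fc_spec f (tU1 k A) (tU2 k A)]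
  conv_lhs => rw [← fc_id h, tp_fc]
  simp only [Complex.ofReal_prod]

theorem tp_fc_exp (k : ℕ) (h : A.IsHermitian) (z : ℂ) :
    tp k (fc (fun x => Complex.exp (z * x)) A) =
      fc (fun x => Complex.exp (z * x)) (dG k A) := by
  rw [tp_fc, fc_dG k _ h]
  simp only [Complex.ofReal_sum, Finset.mul_sum, Complex.exp_sum]


lemma lg_tp (k : ℕ) (h : A.PosDef) : lg (tp k A) = dG k (lg A) := by
  rw [lg, lg, fr, fr, fc_tp k _ h.1, dG_fc]
  congr 3
  funext σ
  rw [Real.log_prod fun i _ => (ev_pos h _).ne', Complex.ofReal_sum]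

lemma pw_tp (k : ℕ) (h : A.PosDef) (s : ℝ) : pw (tp k A) s = tp k (pw A s) := by
  rw [pw, pw, fr, fr, fc_tp k _ h.1, tp_fc]
  congr 3
  funext σ
  rw [← Real.finsetProd_rpow _ _ fun i _ => (ev_pos h _).le, Complex.ofReal_prod]

lemma Tn.commute_conj_iff {m : Type} [Fintype m] [DecidableEq m] {U G : Matrix m m ℂ}
    (h1 : Uᴴ * U = 1) (h2 : U * Uᴴ = 1) (l : m → ℂ) :
    Commute G (U * diagonal l * Uᴴ) ↔ ∀ a b, (Uᴴ * G * U) a b ≠ 0 → l a = l b := by
  have e : Commute G (U * diagonal l * Uᴴ) ↔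
      Uᴴ * G * U * diagonal l = diagonal l * (Uᴴ * G * U) := by
    constructor
    · intro h
      have := congrArg (fun M => Uᴴ * M * U) h.eq
      simp only [Matrix.mul_assoc, h1, Matrix.mul_one] at this
      rw [← Matrix.mul_assoc Uᴴ U, h1, Matrix.one_mul] at this
      simpa only [Matrix.mul_assoc] using this
    · intro h
      have := congrArg (fun M => U * M * Uᴴ) h
      simp only [Matrix.mul_assoc, h2, Matrix.mul_one] at this
      rw [← Matrix.mul_assoc U Uᴴ, h2, Matrix.one_mul] at this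
      unfold Commute SemiconjBy
      simpa only [Matrix.mul_assoc] using this
  rw [e, ← Matrix.ext_iff]
  refine forall_congr' fun a => forall_congr' fun b => ?_
  rw [mul_diagonal, diagonal_mul, mul_comm (l a)]
  constructor
  · intro h h0
    exact (mul_left_cancel₀ h0 h).symm
  · intro h
    by_cases h0 : (Uᴴ * G * U) a b = 0
    · rw [h0, zero_mul, zero_mul]
    · rw [h h0]

/-- a matrix commuting with the one-parameter group commutes with the generator -/
theorem commute_dG_of_unitary {G : Mk k n} (h : A.IsHermitian)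
    (H : ∀ t : ℝ, Commute G (tp k (fc (fun x => Complex.exp (t * Complex.I * x)) A))) :
    Commute G (dG k A) := by
  simp only [tp_fc_exp k h, fc_dG k _ h, commute_conj_iff (tU1 k A) (tU2 k A)] at H
  rw [← fc_id (dG_isHermitian k h), fc_dG k _ h, commute_conj_iff (tU1 k A) (tU2 k A)]
  intro a b h0
  set x := ∑ i, ev A (a i)
  set y := ∑ i, ev A (b i)
  by_contra hne
  have hxy : (y : ℂ) - x ≠ 0 := sub_ne_zero.2 (Ne.symm hne)
  have h1 := H (Real.pi / (y - x)) a b h0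
  have e : ((Real.pi / (y - x) : ℝ) : ℂ) * Complex.I * y =
      ((Real.pi / (y - x) : ℝ) : ℂ) * Complex.I * x + Real.pi * Complex.I := by
    push_cast; field_simp; ring
  rw [e, Complex.exp_add, Complex.exp_pi_mul_I, mul_neg, mul_one, self_eq_neg] at h1
  exact Complex.exp_ne_zero _ h1

/-- `S` is any set of matrices closed under functional calculus of its Hermitian elements -/
theorem commute_tp_of_dG {G : Mk k n} (h : A.PosSemidef)
    (H : ∀ g : ℝ → ℝ, Commute G (dG k (fr g A))) : Commute G (tp k A) := by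
  classical
  simp only [fr, dG_fc, commute_conj_iff (tU1 k A) (tU2 k A)] at H
  rw [← fc_id h.1, tp_fc, commute_conj_iff (tU1 k A) (tU2 k A)]
  intro a b h0
  have e : (univ.val.map fun i => ev A (a i)) = univ.val.map fun i => ev A (b i) := by
    ext x
    have h1 := H (fun y => if x = y then 1 else 0) a b h0
    rw [← Complex.ofReal_sum, ← Complex.ofReal_sum, Complex.ofReal_inj, Finset.sum_boole,
      Finset.sum_boole, Nat.cast_inj] at h1
    rw [Multiset.count_map, Multiset.count_map]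
    exact h1
  rw [← Complex.ofReal_prod, ← Complex.ofReal_prod]
  exact congrArg (fun s : Multiset ℝ => (s.prod : ℂ)) e

/-! ### permutation invariance -/

lemma sy_tp (k : ℕ) (A : Matrix n n ℂ) : Sy (tp k A) := fun π σ τ =>
  Equiv.prod_comp π fun i => A (σ i) (τ i)

lemma sy_dG (k : ℕ) (A : Matrix n n ℂ) : Sy (dG k A) := by
  intro π σ τ
  simp only [dG, Matrix.sum_apply]
  refine Fintype.sum_equiv π _ _ fun i => ?_
  rw [tpf_apply, tpf_apply]
  refine Fintype.prod_equiv π _ _ fun j => ?_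
  rcases eq_or_ne j i with rfl | hj
  · simp
  · rw [Function.update_of_ne hj, Function.update_of_ne (π.injective.ne hj)]
    rfl

lemma sy_one : Sy (1 : Mk k n) := tp_one (n := n) k ▸ sy_tp k 1

lemma Tn.sy_zero : Sy (0 : Mk k n) := fun _ _ _ => rfl

lemma Sy.add {G G' : Mk k n} (h : Sy G) (h' : Sy G') : Sy (G + G') := fun π σ τ => by
  rw [Matrix.add_apply, Matrix.add_apply, h, h']

lemma Sy.neg {G : Mk k n} (h : Sy G) : Sy (-G) := fun π σ τ => by
  rw [Matrix.neg_apply, Matrix.neg_apply, h]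

lemma Sy.sub {G G' : Mk k n} (h : Sy G) (h' : Sy G') : Sy (G - G') := fun π σ τ => by
  rw [Matrix.sub_apply, Matrix.sub_apply, h, h']

lemma Sy.mul {G G' : Mk k n} (h : Sy G) (h' : Sy G') : Sy (G * G') := fun π σ τ => by
  rw [mul_apply, mul_apply]
  refine (Fintype.sum_equiv (Equiv.arrowCongr π.symm (Equiv.refl n)) _ _ fun υ => ?_).symm
  rw [← h π, ← h' π]
  rfl

lemma Sy.smul {G : Mk k n} (h : Sy G) (c : ℂ) : Sy (c • G) := fun π σ τ => by
  rw [Matrix.smul_apply, Matrix.smul_apply, h]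


lemma Sy.conjTranspose {G : Mk k n} (h : Sy G) : Sy Gᴴ := fun π σ τ => by
  rw [conjTranspose_apply, conjTranspose_apply, h]

lemma Sy.sum {α : Type*} {s : Finset α} {G : α → Mk k n} (h : ∀ a ∈ s, Sy (G a)) :
    Sy (∑ a ∈ s, G a) := fun π σ τ => by
  rw [Matrix.sum_apply, Matrix.sum_apply]
  exact Finset.sum_congr rfl fun a ha => h a ha π σ τ

/-- the algebra of invariant matrices -/
def Tn.syA (k : ℕ) (n : Type) [Fintype n] [DecidableEq n] : Subalgebra ℂ (Mk k n) where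
  carrier := {G | Sy G}
  mul_mem' := Sy.mul
  add_mem' := Sy.add
  algebraMap_mem' c := by
    rw [Algebra.algebraMap_eq_smul_one]; exact sy_one.smul c

lemma Sy.fc {G : Mk k n} (h : Sy G) (hG : G.IsHermitian) (f : ℝ → ℂ) : Sy (fc f G) :=
  fc_mem (syA k n) f hG h

lemma Sy.inv {G : Mk k n} (h : Sy G) (hG : G.PosDef) : Sy G⁻¹ := by
  rw [inv_eq_fr hG]; exact h.fc hG.1 _

lemma Sy.integral {X : Type*} [MeasurableSpace X] {μ : Measure X} {F : X → Mk k n}
    (h : ∀ x, Sy (F x)) : Sy (∫ x, F x ∂μ) := by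
  by_cases hF : Integrable F μ
  · intro π σ τ
    have key : ∀ a b : Fin k → n, (∫ x, F x ∂μ) a b = ∫ x, F x a b ∂μ := fun a b =>
      ((LinearMap.toContinuousLinearMap (Matrix.entryLinearMap ℂ ℂ a b)).integral_comp_comm
        hF).symm
    simp only [key, h _ π σ τ]
  · rw [integral_undef hF]; exact sy_zero

end Crest.Agent.N336.R
end

-- ▼ part N336/R/Tens
section

/-! # Row 336, replica package: tensor powers (proofs in `R/Tens0.lean`) -/
end

-- ▼ part N336/R/Sym0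
section

/-! # Row 336, replica package: the symmetric space, part without tensor lemmas (helper60) -/

set_option autoImplicit false
set_option linter.unusedSectionVars false

open Matrix Finset MeasureTheory Filter
open scoped ComplexOrder MatrixOrder Matrix.Norms.L2Operator InnerProductSpace Topology

namespace Crest.Agent.N336.R

open Crest.Agent.N336.Q Crest.Agent.N336.Eng Crest.Agent.N336.C

variable {n : Type} [Fintype n] [DecidableEq n] {k : ℕ} {G G' : Mk k n}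

lemma ty_comp (σ : Fin k → n) (π : Equiv.Perm (Fin k)) : ty (σ ∘ π) = ty σ := by
  apply Subtype.ext
  change Multiset.map (σ ∘ π) univ.val = Multiset.map σ univ.val
  rw [← Multiset.map_map, Multiset.map_univ_val_equiv]

lemma count_ty (σ : Fin k → n) (b : n) :
    Multiset.count b (ty σ).1 = Fintype.card {i // σ i = b} := by
  change Multiset.count b (Multiset.map σ univ.val) = _
  rw [Multiset.count_map, Fintype.card_subtype, Finset.card, Finset.filter_val]
  congr 1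
  exact Multiset.filter_congr fun _ _ => eq_comm

lemma ty_eq_iff {σ τ : Fin k → n} : ty σ = ty τ ↔ ∃ π : Equiv.Perm (Fin k), τ = σ ∘ π := by
  constructor
  · intro h
    have e : ∀ b, {i // τ i = b} ≃ {i // σ i = b} := fun b =>
      Fintype.equivOfCardEq (by rw [← count_ty, ← count_ty, h])
    exact ⟨Equiv.ofFiberEquiv e, funext fun i => (Equiv.ofFiberEquiv_map e i).symm⟩
  · rintro ⟨π, rfl⟩
    exact (ty_comp σ π).symm

lemma ty_surjective : Function.Surjective (ty : (Fin k → n) → Sym n k) := by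
  rintro ⟨m, hm⟩
  induction m using Quotient.inductionOn with
  | h l =>
    have hl : l.length = k := hm
    subst hl
    refine ⟨l.get, Subtype.ext ?_⟩
    change Multiset.map l.get univ.val = (l : Multiset n)
    rw [Fin.univ_val_map, List.ofFn_get]

/-- size of the fibre of a type -/
def fib (t : Sym n k) : ℕ := (univ.filter fun τ : Fin k → n => ty τ = t).card

/-- normalisation of the symmetric basis vectors -/
noncomputable def cf (t : Sym n k) : ℂ := (((Real.sqrt (fib t))⁻¹ : ℝ) : ℂ)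

lemma fib_pos (t : Sym n k) : 0 < fib t := by
  obtain ⟨σ, h⟩ := ty_surjective t
  exact Finset.card_pos.2 ⟨σ, by simp [h]⟩

lemma star_cf (t : Sym n k) : star (cf t) = cf t := Complex.conj_ofReal _

lemma cf_mul_cf (t : Sym n k) : cf t * cf t * fib t = 1 := by
  have h : (0 : ℝ) < fib t := by exact_mod_cast fib_pos t
  have h2 : (Real.sqrt (fib t))⁻¹ * (Real.sqrt (fib t))⁻¹ * fib t = 1 := by
    rw [← mul_inv, Real.mul_self_sqrt h.le, inv_mul_cancel₀ h.ne']
  unfold cf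
  exact_mod_cast h2

lemma cf_ne_zero (t : Sym n k) : cf t ≠ 0 := by
  intro h
  have := cf_mul_cf t
  rw [h] at this
  simp at this

lemma J_apply (σ : Fin k → n) (t : Sym n k) : J k n σ t = if ty σ = t then cf t else 0 := rfl

lemma J_mulVec (w : Sym n k → ℂ) (σ : Fin k → n) :
    (J k n *ᵥ w) σ = cf (ty σ) * w (ty σ) := by
  simp [mulVec, dotProduct, J_apply]

lemma Jh_mulVec (v : (Fin k → n) → ℂ) (t : Sym n k) :
    ((J k n)ᴴ *ᵥ v) t = cf t * ∑ σ ∈ univ.filter (fun σ => ty σ = t), v σ := by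
  simp only [mulVec, dotProduct, conjTranspose_apply, J_apply, Finset.sum_filter, Finset.mul_sum]
  refine Finset.sum_congr rfl fun σ _ => ?_
  split_ifs
  · rw [star_cf]
  · simp

lemma Jh_mulVec_comp (w : Sym n k → ℂ) (t : Sym n k) :
    ((J k n)ᴴ *ᵥ fun σ => w (ty σ)) t = cf t * fib t * w t := by
  rw [Jh_mulVec, Finset.sum_congr rfl (g := fun _ => w t)
    (fun σ hσ => by rw [(Finset.mem_filter.1 hσ).2]), Finset.sum_const, nsmul_eq_mul, mul_assoc]
  rfl

lemma Jh_J_mulVec (w : Sym n k → ℂ) : (J k n)ᴴ *ᵥ (J k n *ᵥ w) = w := by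
  funext t
  have : J k n *ᵥ w = fun σ => (fun t => cf t * w t) (ty σ) := funext fun σ => J_mulVec w σ
  rw [this, Jh_mulVec_comp (fun t => cf t * w t)]
  linear_combination w t * cf_mul_cf t

lemma J_star_J (k : ℕ) : (J k n)ᴴ * J k n = 1 := by
  refine Matrix.ext_of_mulVec_single fun t => ?_
  rw [← mulVec_mulVec, Jh_J_mulVec, one_mulVec]

/-- `J Jᴴ` fixes the permutation invariant vectors -/
lemma J_Jh_mulVec {v : (Fin k → n) → ℂ} (h : ∀ (π : Equiv.Perm (Fin k)) σ, v (σ ∘ π) = v σ) :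
    J k n *ᵥ ((J k n)ᴴ *ᵥ v) = v := by
  obtain ⟨s, hs⟩ := (ty_surjective (n := n) (k := k)).hasRightInverse
  have hv : v = fun σ => (fun t => v (s t)) (ty σ) := by
    funext σ
    obtain ⟨π, hπ⟩ := ty_eq_iff.1 (hs (ty σ))
    conv_lhs => rw [hπ]
    exact h π _
  funext σ
  rw [J_mulVec]
  conv_lhs => rw [hv]
  rw [Jh_mulVec_comp (fun t => v (s t))]
  conv_rhs => rw [hv]
  linear_combination v (s (ty σ)) * cf_mul_cf (ty σ)

/-- precomposition with a permutation of the replicas -/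
def pc (π : Equiv.Perm (Fin k)) : (Fin k → n) ≃ (Fin k → n) where
  toFun τ := τ ∘ π
  invFun τ := τ ∘ π.symm
  left_inv τ := by funext i; simp
  right_inv τ := by funext i; simp

theorem Sy.mul_J (h : Sy G) : G * J k n = J k n * cmp G := by
  ext σ t
  have key := congrFun (J_Jh_mulVec (v := fun σ => (G * J k n) σ t) fun π σ => by
    simp only [Matrix.mul_apply]
    rw [← Equiv.sum_comp (pc π)]
    refine Finset.sum_congr rfl fun τ _ => ?_
    change G (σ ∘ π) (τ ∘ π) * J k n (τ ∘ π) t = _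
    rw [h, J_apply, J_apply, ty_comp]) σ
  rw [← key, cmp, Matrix.mul_assoc]
  rfl

lemma cmp_one : cmp (1 : Mk k n) = 1 := by rw [cmp, Matrix.mul_one, J_star_J]

lemma cmp_add (G G' : Mk k n) : cmp (G + G') = cmp G + cmp G' := by
  simp only [cmp, Matrix.mul_add, Matrix.add_mul]

lemma cmp_sub (G G' : Mk k n) : cmp (G - G') = cmp G - cmp G' := by
  simp only [cmp, Matrix.mul_sub, Matrix.sub_mul]

lemma cmp_neg (G : Mk k n) : cmp (-G) = -cmp G := by
  simp only [cmp, Matrix.mul_neg, Matrix.neg_mul]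

lemma cmp_smul (c : ℂ) (G : Mk k n) : cmp (c • G) = c • cmp G := by
  simp only [cmp, Matrix.mul_smul, Matrix.smul_mul]

lemma cmp_rsmul (c : ℝ) (G : Mk k n) : cmp (c • G) = c • cmp G := by
  simp only [cmp, Matrix.mul_smul, Matrix.smul_mul]

lemma cmp_sum {α : Type*} (s : Finset α) (G : α → Mk k n) :
    cmp (∑ a ∈ s, G a) = ∑ a ∈ s, cmp (G a) := by
  simp only [cmp, Matrix.mul_sum, Matrix.sum_mul]

lemma cmp_conjTranspose (G : Mk k n) : cmp Gᴴ = (cmp G)ᴴ := by
  simp only [cmp, conjTranspose_mul, conjTranspose_conjTranspose, Matrix.mul_assoc]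

lemma cmp_mul (G : Mk k n) (h : Sy G') : cmp (G * G') = cmp G * cmp G' := by
  calc cmp (G * G') = (J k n)ᴴ * G * (G' * J k n) := by simp only [cmp, Matrix.mul_assoc]
    _ = cmp G * cmp G' := by rw [h.mul_J, ← Matrix.mul_assoc]; rfl

lemma cmp_isHermitian (h : G.IsHermitian) : (cmp G).IsHermitian := by
  rw [IsHermitian, ← cmp_conjTranspose, h.eq]

lemma cmp_posSemidef (h : G.PosSemidef) : (cmp G).PosSemidef :=
  h.conjTranspose_mul_mul_same _

lemma J_injective : Function.Injective (J k n).mulVec :=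
  Function.LeftInverse.injective (g := ((J k n)ᴴ).mulVec) Jh_J_mulVec

lemma cmp_posDef (h : G.PosDef) : (cmp G).PosDef :=
  h.conjTranspose_mul_mul_same J_injective

lemma cmp_mono (h : G ≤ G') : cmp G ≤ cmp G' := by
  rw [Matrix.le_iff] at h ⊢
  rw [← cmp_sub]
  exact cmp_posSemidef h



lemma cmp_fc (h : Sy G) (hG : G.IsHermitian) (f : ℝ → ℂ) : cmp (fc f G) = fc f (cmp G) := by
  rw [cmp, Matrix.mul_assoc, fc_intertwine f hG (cmp_isHermitian hG) h.mul_J, ← Matrix.mul_assoc,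
    J_star_J, Matrix.one_mul]

lemma cmp_inv (h : Sy G) (hG : G.PosDef) : cmp G⁻¹ = (cmp G)⁻¹ := by
  refine (Matrix.inv_eq_left_inv ?_).symm
  rw [← cmp_mul _ h, Matrix.nonsing_inv_mul _ ((Matrix.isUnit_iff_isUnit_det G).1 hG.isUnit),
    cmp_one]

lemma cmp_commute (h : Sy G) (h' : Sy G') (hc : Commute G G') : Commute (cmp G) (cmp G') := by
  rw [Commute, SemiconjBy, ← cmp_mul _ h', ← cmp_mul _ h, hc.eq]

lemma J_cv (k : ℕ) (χ : Q.Vec n) : J k n *ᵥ (cv k χ).ofLp = (tv k χ).ofLp :=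
  J_Jh_mulVec (v := (tv k χ).ofLp) fun π σ => Equiv.prod_comp π fun i => χ (σ i)

lemma ofLp_ap_cmp_cv (G : Mk k n) (χ : Q.Vec n) :
    (ap (cmp G) (cv k χ)).ofLp = (J k n)ᴴ *ᵥ (ap G (tv k χ)).ofLp := by
  rw [ofLp_ap, ofLp_ap, cmp, ← mulVec_mulVec, ← mulVec_mulVec, J_cv]

lemma star_dot_Jh (w : Sym n k → ℂ) (v : (Fin k → n) → ℂ) :
    star w ⬝ᵥ (J k n)ᴴ *ᵥ v = star (J k n *ᵥ w) ⬝ᵥ v := by
  rw [dotProduct_mulVec, star_mulVec]

lemma inner_cv_cmp (G : Mk k n) (χ χ' : Q.Vec n) :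
    ⟪cv k χ, ap (cmp G) (cv k χ')⟫_ℂ = ⟪tv k χ, ap G (tv k χ')⟫_ℂ := by
  rw [inner_eq, inner_eq, ofLp_ap_cmp_cv, star_dot_Jh, J_cv]

lemma qf_cv_cmp (G : Mk k n) (χ : Q.Vec n) : qf (cv k χ) (cmp G) = qf (tv k χ) G := by
  rw [qf, qf, inner_cv_cmp]

/-- `J` is an isometry -/
lemma norm_eq_of_J {w : Q.Vec (Sym n k)} {v : Q.Vec (Fin k → n)} (h : J k n *ᵥ w.ofLp = v.ofLp) :
    ‖w‖ = ‖v‖ := by
  have h1 : ⟪w, w⟫_ℂ = ⟪v, v⟫_ℂ := by
    rw [inner_eq, inner_eq, ← h, ← star_dot_Jh, Jh_J_mulVec]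
  rw [inner_self_eq_norm_sq_to_K, inner_self_eq_norm_sq_to_K] at h1
  have h2 : ‖w‖ ^ 2 = ‖v‖ ^ 2 := by exact_mod_cast h1
  exact (pow_left_inj₀ (norm_nonneg _) (norm_nonneg _) two_ne_zero).1 h2

lemma norm_ap_cmp_cv (h : Sy G) (χ : Q.Vec n) : ‖ap (cmp G) (cv k χ)‖ = ‖ap G (tv k χ)‖ := by
  refine norm_eq_of_J ?_
  rw [ofLp_ap, ofLp_ap, mulVec_mulVec, ← h.mul_J, ← mulVec_mulVec, J_cv]

lemma inner_cv_tv (χ χ' : Q.Vec n) : ⟪cv k χ, cv k χ'⟫_ℂ = ⟪tv k χ, tv k χ'⟫_ℂ := by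
  have := inner_cv_cmp (1 : Mk k n) χ χ'
  rwa [cmp_one, ap_one, ap_one] at this

lemma cmp_pj_tv (χ : Q.Vec n) : cmp (pj (tv k χ)) = pj (cv k χ) := by
  rw [cmp, pj, pj, kb, kb, mul_vecMulVec, vecMulVec_mul]
  congr 1
  change _ = star ((J k n)ᴴ *ᵥ _)
  rw [star_mulVec, conjTranspose_conjTranspose]

/-- coordinates of the coherent vector -/
lemma cv_apply (χ : Q.Vec n) (t : Sym n k) :
    cv k χ t = cf t * fib t * (t.1.map fun a => χ a).prod := by
  rw [← Jh_mulVec_comp (fun t : Sym n k => (t.1.map fun a => χ a).prod) t]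
  change ((J k n)ᴴ *ᵥ _) t = _
  congr 2
  funext σ
  change ∏ i, χ (σ i) = (Multiset.map _ (Multiset.map σ univ.val)).prod
  rw [Multiset.map_map]
  rfl

lemma cv_smul (k : ℕ) (c : ℂ) (χ : Q.Vec n) : cv k (c • χ) = c ^ k • cv k χ := by
  ext t
  rw [PiLp.smul_apply, cv_apply, cv_apply]
  simp only [PiLp.smul_apply, smul_eq_mul, Multiset.prod_map_mul, Multiset.map_const',
    Multiset.prod_replicate, t.2]
  ring

/-- monomials are linearly independent -/
lemma mon_indep {a : Sym n k → ℂ} (h : ∀ x : n → ℂ, ∑ t, a t * (t.1.map x).prod = 0) (t : Sym n k) :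
    a t = 0 := by
  have hp : (∑ t : Sym n k, MvPolynomial.monomial (Multiset.toFinsupp t.1) (a t)) = 0 := by
    refine MvPolynomial.funext fun x => ?_
    rw [map_sum, map_zero, ← h x]
    refine Finset.sum_congr rfl fun t _ => ?_
    rw [MvPolynomial.eval_monomial, Finset.prod_multiset_map_count, Finsupp.prod,
      Multiset.toFinsupp_support]
    rfl
  have := congrArg (MvPolynomial.coeff (Multiset.toFinsupp t.1)) hp
  rw [MvPolynomial.coeff_sum, Finset.sum_eq_single t, MvPolynomial.coeff_monomial, if_pos rfl] at this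
  · exact this
  · intro s _ hs
    rw [MvPolynomial.coeff_monomial, if_neg]
    exact fun e => hs (Subtype.ext (Multiset.toFinsupp.injective e))
  · simp

/-- coherent vectors span -/
theorem ext_cv {M : Ms k n} (h : ∀ χ : Q.Vec n, ‖χ‖ = 1 → ap M (cv k χ) = 0) [Nonempty n] :
    M = 0 := by
  have h' : ∀ χ : Q.Vec n, ap M (cv k χ) = 0 := by
    intro χ
    obtain ⟨c, u, hu, rfl⟩ : ∃ (c : ℂ) (u : Q.Vec n), ‖u‖ = 1 ∧ χ = c • u := by
      by_cases h0 : χ = 0
      · obtain ⟨a⟩ := ‹Nonempty n›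
        exact ⟨0, EuclideanSpace.single a 1, by simp, by simp [h0]⟩
      · have hn : (‖χ‖ : ℂ) ≠ 0 := by simpa using h0
        refine ⟨‖χ‖, (‖χ‖ : ℂ)⁻¹ • χ, ?_, by rw [smul_smul, mul_inv_cancel₀ hn, one_smul]⟩
        rw [norm_smul, norm_inv, Complex.norm_real, norm_norm, inv_mul_cancel₀ (by simpa using h0)]
    rw [cv_smul, map_smul, h u hu, smul_zero]
  ext s t
  have := mon_indep (a := fun t => M s t * (cf t * fib t)) (fun x => by
    have h1 := congrFun (congrArg WithLp.ofLp (h' (WithLp.toLp 2 x))) s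
    change ∑ j, M s j * cv k (WithLp.toLp 2 x) j = 0 at h1
    rw [← h1]
    refine Finset.sum_congr rfl fun t _ => ?_
    rw [cv_apply, mul_assoc]) t
  have hf : (fib t : ℂ) ≠ 0 := by exact_mod_cast (fib_pos t).ne'
  simpa [cf_ne_zero, hf] using this

lemma dk_pos [Nonempty n] (k : ℕ) : 0 < dk k n :=
  Fintype.card_pos_iff.2 ⟨Sym.replicate k (Classical.arbitrary n)⟩

lemma choose_half (N k : ℕ) : (k + N).choose N ≤ 2 ^ N * (k / 2 + N).choose N := by
  induction N with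
  | zero => simp
  | succ N ih =>
    refine Nat.le_of_mul_le_mul_right ?_ (Nat.succ_pos N)
    have h1 := Nat.add_one_mul_choose_eq (k + N) N
    have h2 := Nat.add_one_mul_choose_eq (k / 2 + N) N
    have h3 : k + N + 1 ≤ 2 * (k / 2 + N + 1) := by omega
    calc (k + (N + 1)).choose (N + 1) * (N + 1) = (k + N + 1) * (k + N).choose N := h1.symm
      _ ≤ (2 * (k / 2 + N + 1)) * (2 ^ N * (k / 2 + N).choose N) := Nat.mul_le_mul h3 ih
      _ = 2 ^ (N + 1) * ((k / 2 + N + 1) * (k / 2 + N).choose N) := by ring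
      _ = 2 ^ (N + 1) * (k / 2 + (N + 1)).choose (N + 1) * (N + 1) := by
        rw [h2, mul_assoc]; rfl

lemma dk_le_half (k : ℕ) : dk k n ≤ 2 ^ Fintype.card n * dk (k / 2) n := by
  rw [dk, dk, Sym.card_sym_eq_choose, Sym.card_sym_eq_choose]
  rcases Fintype.card n with _ | N
  · rcases k with _ | k
    · simp
    · rw [Nat.choose_eq_zero_of_lt (by omega)]
      exact Nat.zero_le _
  · have e : ∀ j, (N + 1 + j - 1).choose j = (j + N).choose N := fun j => by
      rw [show N + 1 + j - 1 = j + N by omega, Nat.choose_symm_add]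
    rw [e, e]
    refine (choose_half N k).trans (Nat.mul_le_mul_right _ ?_)
    exact Nat.pow_le_pow_right two_pos (Nat.le_succ N)

lemma dk_le (k : ℕ) : dk k n ≤ (k + 1) ^ Fintype.card n := by
  have := Fintype.card_le_of_injective (fun (t : Sym n k) (a : n) =>
    (⟨t.1.count a, Nat.lt_succ_of_le ((Multiset.count_le_card a _).trans t.2.le)⟩ : Fin (k + 1)))
    fun s t h => Subtype.ext (Multiset.ext.2 fun a => congrArg Fin.val (congrFun h a))
  simpa using this

lemma dk_le_exp {δ : ℝ} (hδ : 0 < δ) :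
    ∀ᶠ k : ℕ in atTop, (dk k n : ℝ) ≤ Real.exp (δ * k) := by
  have h1 := (isLittleO_pow_exp_pos_mul_atTop (Fintype.card n) hδ).def (Real.exp_pos (-δ))
  have h2 : Tendsto (fun k : ℕ => (k : ℝ) + 1) atTop atTop :=
    tendsto_atTop_add_const_right _ 1 tendsto_natCast_atTop_atTop
  filter_upwards [h2.eventually h1] with k hk
  rw [Real.norm_of_nonneg (by positivity), Real.norm_of_nonneg (Real.exp_pos _).le,
    ← Real.exp_add] at hk
  calc (dk k n : ℝ) ≤ ((k : ℝ) + 1) ^ Fintype.card n := by exact_mod_cast dk_le k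
    _ ≤ _ := hk
    _ = _ := by congr 1; ring

end Crest.Agent.N336.R
end

-- ▼ part N336/R/Sym
section

/-! # Row 336, replica package: the symmetric space (most lemmas are in `R/Sym0`) (helper60) -/

set_option autoImplicit false
set_option linter.unusedSectionVars false

open Matrix Finset MeasureTheory Filter
open scoped ComplexOrder MatrixOrder Matrix.Norms.L2Operator InnerProductSpace Topology

namespace Crest.Agent.N336.R

open Crest.Agent.N336.Q Crest.Agent.N336.Eng Crest.Agent.N336.C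

variable {n : Type} [Fintype n] [DecidableEq n] {k : ℕ} {G G' : Mk k n}

lemma ap_cmp_tp (k : ℕ) (A : Matrix n n ℂ) (χ : Q.Vec n) :
    ap (cmp (tp k A)) (cv k χ) = cv k (ap A χ) := by
  apply WithLp.ofLp_injective
  rw [ofLp_ap_cmp_cv, ap_tp_tv]
  rfl

lemma ap_cmp_dG (k : ℕ) {A : Matrix n n ℂ} {χ : Q.Vec n} {c : ℂ} (h : ap A χ = c • χ) :
    ap (cmp (dG k A)) (cv k χ) = (k * c) • cv k χ := by
  apply WithLp.ofLp_injective
  rw [ofLp_ap_cmp_cv, ap_dG_tv k h, WithLp.ofLp_smul, mulVec_smul]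
  rfl

lemma inner_cv (k : ℕ) (χ χ' : Q.Vec n) : ⟪cv k χ, cv k χ'⟫_ℂ = ⟪χ, χ'⟫_ℂ ^ k := by
  rw [inner_cv_tv, inner_tv]

lemma norm_cv (k : ℕ) (χ : Q.Vec n) : ‖cv k χ‖ = ‖χ‖ ^ k := by
  rw [norm_eq_of_J (J_cv k χ), norm_tv]

lemma continuous_cv (k : ℕ) : Continuous (cv k : Q.Vec n → Q.Vec (Sym n k)) :=
  (PiLp.continuous_toLp 2 _).comp
    (continuous_const.matrix_mulVec ((PiLp.continuous_ofLp 2 _).comp (continuous_tv k)))

lemma cmp_tp_pj (k : ℕ) (χ : Q.Vec n) : cmp (tp k (pj χ)) = pj (cv k χ) := by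
  rw [tp_pj, cmp_pj_tv]

end Crest.Agent.N336.R
end

-- ▼ part N336/R/CohP
section

/-! # Row 336, replica package: integrals of matrices, POVM Jensen inequalities -/

set_option autoImplicit false
set_option linter.unusedSectionVars false

open Matrix Finset MeasureTheory Filter
open scoped ComplexOrder MatrixOrder Matrix.Norms.L2Operator InnerProductSpace Topology

namespace Crest.Agent.N336.R

open Crest.Agent.N336.Q Crest.Agent.N336.Eng Crest.Agent.N336.C

section povm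
variable {m : Type} [Fintype m] [DecidableEq m] {X : Type*} [MeasurableSpace X] {μ : Measure X}

/-- matrix elements as continuous linear forms -/
noncomputable def iL (v w : Q.Vec m) : Matrix m m ℂ →L[ℂ] ℂ :=
  (innerSL ℂ v).comp ((ContinuousLinearMap.apply ℂ (Q.Vec m) w).comp (SB.apL m))


lemma inner_integral {F : X → Matrix m m ℂ} (hF : Integrable F μ) (v w : Q.Vec m) :
    ⟪v, ap (∫ x, F x ∂μ) w⟫_ℂ = ∫ x, ⟪v, ap (F x) w⟫_ℂ ∂μ :=
  ((iL v w).integral_comp_comm hF).symm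

lemma qf_integral {F : X → Matrix m m ℂ} (hF : Integrable F μ) (v : Q.Vec m) :
    qf v (∫ x, F x ∂μ) = ∫ x, qf v (F x) ∂μ := by
  rw [qf, inner_integral hF]
  exact (Complex.reCLM.integral_comp_comm ((iL v v).integrable_comp hF)).symm

lemma integral_conjTranspose (F : X → Matrix m m ℂ) :
    ∫ x, (F x)ᴴ ∂μ = (∫ x, F x ∂μ)ᴴ :=
  (starL' ℝ : Matrix m m ℂ ≃L[ℝ] Matrix m m ℂ).integral_comp_comm F

lemma isHermitian_integral {F : X → Matrix m m ℂ} (h : ∀ᵐ x ∂μ, (F x).IsHermitian) :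
    (∫ x, F x ∂μ).IsHermitian := by
  unfold Matrix.IsHermitian
  rw [← integral_conjTranspose]
  exact integral_congr_ae h

lemma posSemidef_integral {F : X → Matrix m m ℂ} (h : ∀ᵐ x ∂μ, (F x).PosSemidef) :
    (∫ x, F x ∂μ).PosSemidef := by
  by_cases hF : Integrable F μ
  · refine posSemidef_of_re_inner (isHermitian_integral (h.mono fun x hx => hx.1)) fun v => ?_
    change 0 ≤ qf v _
    rw [qf_integral hF]
    exact integral_nonneg_of_ae (h.mono fun x hx => re_inner_ap_nonneg hx v)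
  · rw [integral_undef hF]; exact PosSemidef.zero

lemma integral_mono_mat {F G : X → Matrix m m ℂ} (hF : Integrable F μ) (hG : Integrable G μ)
    (h : ∀ᵐ x ∂μ, F x ≤ G x) : ∫ x, F x ∂μ ≤ ∫ x, G x ∂μ := by
  rw [Matrix.le_iff, ← integral_sub hG hF]
  exact posSemidef_integral (h.mono fun x hx => Matrix.le_iff.1 hx)

lemma rsmul_le_rsmul {P : Matrix m m ℂ} (hP : P.PosSemidef) {a b : ℝ} (h : a ≤ b) :
    a • P ≤ b • P := by
  rw [Matrix.le_iff, ← sub_smul]
  exact hP.smul (sub_nonneg.2 h)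

lemma rsmul_mono {A B : Matrix m m ℂ} (h : A ≤ B) {a : ℝ} (ha : 0 ≤ a) : a • A ≤ a • B := by
  rw [Matrix.le_iff, ← smul_sub]
  exact (Matrix.le_iff.1 h).smul ha

lemma rsmul_eq (a : ℝ) (A : Matrix m m ℂ) : a • A = (a : ℂ) • A := rfl

lemma le_of_forall_add_smul {A B : Matrix m m ℂ} (hA : A.IsHermitian) (hB : B.IsHermitian)
    (h : ∀ ε : ℝ, 0 < ε → A ≤ B + ε • (1 : Matrix m m ℂ)) : A ≤ B := by
  rw [Matrix.le_iff]
  refine posSemidef_of_re_inner (hB.sub hA) fun v => ?_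
  change 0 ≤ qf v _
  rw [qf_sub, sub_nonneg]
  refine le_of_forall_pos_le_add fun ε hε => ?_
  have h1 : qf v A ≤ qf v (B + (ε / (‖v‖ ^ 2 + 1)) • (1 : Matrix m m ℂ)) :=
    re_inner_ap_mono (h _ (by positivity)) v
  rw [qf_add, qf_rsmul, qf_one] at h1
  have h2 : ε / (‖v‖ ^ 2 + 1) * ‖v‖ ^ 2 ≤ ε := by
    rw [div_mul_eq_mul_div, div_le_iff₀ (by positivity)]; nlinarith
  linarith

/-- Schur complement inequality for an operator valued measure -/
theorem schur {P : X → Matrix m m ℂ} (hp : ∀ᵐ x ∂μ, (P x).PosSemidef) {e : X → ℂ} {v : X → ℝ}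
    (hv : ∀ᵐ x ∂μ, 0 < v x) (h1 : Integrable (fun x => e x • P x) μ)
    (h2 : Integrable (fun x => v x • P x) μ) (h3 : Integrable (fun x => (‖e x‖ ^ 2 / v x) • P x) μ)
    (hV : (∫ x, v x • P x ∂μ).PosDef) :
    (∫ x, e x • P x ∂μ)ᴴ * (∫ x, v x • P x ∂μ)⁻¹ * (∫ x, e x • P x ∂μ) ≤
      ∫ x, (‖e x‖ ^ 2 / v x) • P x ∂μ := by
  set E := ∫ x, e x • P x ∂μ with hE
  set V := ∫ x, v x • P x ∂μ with hVd
  set Y := V⁻¹ * E with hY
  have hVi : V * V⁻¹ = 1 := Matrix.mul_nonsing_inv _ ((isUnit_iff_isUnit_det _).1 hV.isUnit)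
  have hVh : (V⁻¹)ᴴ = V⁻¹ := hV.inv.1.eq
  have h1' : Integrable (fun x => (e x • P x)ᴴ) μ :=
    (starL' ℝ : Matrix m m ℂ ≃L[ℝ] Matrix m m ℂ).toContinuousLinearMap.integrable_comp h1
  have key : (∫ x, ((‖e x‖ ^ 2 / v x) • P x - (e x • P x)ᴴ * Y - Yᴴ * (e x • P x) +
      Yᴴ * (v x • P x) * Y) ∂μ).PosSemidef := by
    refine posSemidef_integral ?_
    filter_upwards [hp, hv] with x hx hvx
    have := (hx.conjTranspose_mul_mul_same (e x • (1 : Matrix m m ℂ) - (v x : ℂ) • Y)).smul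
      (inv_pos.2 hvx).le
    convert this using 1
    have hv0 : (v x : ℂ) ≠ 0 := by exact_mod_cast hvx.ne'
    have hn : ((‖e x‖ ^ 2 / v x : ℝ) : ℂ) = (v x : ℂ)⁻¹ * (star (e x) * e x) := by
      rw [Complex.star_def, Complex.conj_mul']; push_cast; field_simp
    simp only [rsmul_eq, hn, conjTranspose_sub, conjTranspose_smul, conjTranspose_one, hx.1.eq,
      Matrix.sub_mul, Matrix.mul_sub, Matrix.smul_mul, Matrix.mul_smul, Matrix.one_mul,
      Matrix.mul_one, smul_sub, smul_smul, Complex.ofReal_inv, Complex.star_def,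
      Complex.conj_ofReal]
    have e1 : (v x : ℂ)⁻¹ * ((v x : ℂ) * (starRingEnd ℂ) (e x)) = (starRingEnd ℂ) (e x) := by
      field_simp
    have e2 : (v x : ℂ)⁻¹ * (e x * (v x : ℂ)) = e x := by field_simp
    have e3 : (v x : ℂ)⁻¹ * ((v x : ℂ) * (v x : ℂ)) = v x := by field_simp
    rw [e1, e2, e3, mul_comm (e x)]
    abel
  have i1 : Integrable (fun x => (‖e x‖ ^ 2 / v x) • P x - (e x • P x)ᴴ * Y) μ :=
    h3.sub (h1'.mul_const Y)
  have i2 : Integrable (fun x => (‖e x‖ ^ 2 / v x) • P x - (e x • P x)ᴴ * Y -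
      Yᴴ * (e x • P x)) μ := i1.sub (h1.const_mul Yᴴ)
  rw [integral_add i2 ((h2.const_mul Yᴴ).mul_const Y), integral_sub i1 (h1.const_mul Yᴴ),
    integral_sub h3 (h1'.mul_const Y),
    integral_mul_const_of_integrable h1', integral_const_mul_of_integrable h1,
    integral_mul_const_of_integrable (h2.const_mul Yᴴ), integral_const_mul_of_integrable h2,
    integral_conjTranspose, ← hE, ← hVd] at key
  have e1 : Yᴴ * V * Y = Yᴴ * E := by
    rw [Matrix.mul_assoc, hY, ← Matrix.mul_assoc V, hVi, Matrix.one_mul]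
  rw [e1, sub_add_cancel, hY, ← Matrix.mul_assoc] at key
  exact Matrix.le_iff.2 key

lemma integrable_bdd_smul {P : X → Matrix m m ℂ} (hP : Integrable P μ) {g : X → ℝ}
    (hg : AEStronglyMeasurable g μ) {C : ℝ} (hC : ∀ᵐ x ∂μ, |g x| ≤ C) :
    Integrable (fun x => g x • P x) μ :=
  hP.bdd_smul C hg hC

lemma one_sub_inv_le_lg {A : Matrix m m ℂ} (hA : A.PosDef) : 1 - A⁻¹ ≤ lg A := by
  have : 1 - A⁻¹ = fr (fun x => 1 - x⁻¹) A := by
    rw [inv_eq_fr hA, ← fc_one A, fc_sub]; exact fc_congr fun i => by simp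
  rw [this]
  exact fr_le_fr fun i => Real.one_sub_inv_le_log_of_pos (ev_pos hA i)

/-- operator Jensen inequality for the logarithm -/
theorem povm_log {P : X → Matrix m m ℂ} (hP : Integrable P μ) (hp : ∀ᵐ x ∂μ, (P x).PosSemidef)
    (h1 : ∫ x, P x ∂μ = 1) {f : X → ℝ} (hf : AEStronglyMeasurable f μ) {C : ℝ}
    (hC : ∀ᵐ x ∂μ, |f x| ≤ C) :
    (∫ x, Real.exp (f x) • P x ∂μ).PosDef ∧
      ∫ x, f x • P x ∂μ ≤ lg (∫ x, Real.exp (f x) • P x ∂μ) := by
  set Z : ℝ → Matrix m m ℂ := fun s => ∫ x, Real.exp (s * f x) • P x ∂μ with hZ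
  have hb : ∀ s : ℝ, ∀ᵐ x ∂μ, |s * f x| ≤ |s| * C := fun s => hC.mono fun x hx => by
    rw [abs_mul]; gcongr
  have hi : ∀ s : ℝ, Integrable (fun x => Real.exp (s * f x) • P x) μ := fun s =>
    integrable_bdd_smul hP (Real.continuous_exp.comp_aestronglyMeasurable (hf.const_mul s))
      (C := Real.exp (|s| * C)) ((hb s).mono fun x hx => by
        rw [abs_of_pos (Real.exp_pos _)]; exact Real.exp_le_exp.2 ((le_abs_self _).trans hx))
  have hc : ∀ c : ℝ, ∫ x, c • P x ∂μ = c • (1 : Matrix m m ℂ) := fun c => by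
    rw [integral_smul, h1]
  have hpd : ∀ s, (Z s).PosDef := fun s => by
    refine posDef_of_le (A := Real.exp (-(|s| * C)) • (1 : Matrix m m ℂ))
      (PosDef.one.smul (Real.exp_pos _)) ?_
    rw [← hc]
    refine integral_mono_mat (hP.smul (Real.exp (-(|s| * C)))) (hi s) ?_
    filter_upwards [hp, hb s] with x hx h
    exact rsmul_le_rsmul hx (Real.exp_le_exp.2 (neg_le_of_abs_le h))
  -- Kadison
  have hK : ∀ s, Z s * Z s ≤ Z (2 * s) := fun s => by
    have hn : ∀ x, ‖((Real.exp (s * f x) : ℝ) : ℂ)‖ ^ 2 / 1 = Real.exp (2 * s * f x) := fun x => by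
      rw [Complex.norm_real, Real.norm_eq_abs, sq_abs, div_one, sq, ← Real.exp_add]; ring_nf
    have := schur hp (e := fun x => ((Real.exp (s * f x) : ℝ) : ℂ)) (v := fun _ => 1)
      (ae_of_all _ fun _ => one_pos) (hi s) (hP.smul (1 : ℝ)) (by simpa only [hn] using hi (2 * s))
      (by rw [hc, one_smul]; exact PosDef.one)
    rw [hc, one_smul, inv_one, Matrix.mul_one] at this
    simp only [hn] at this
    have h2 : (Z s)ᴴ = Z s := (hpd s).1.eq
    have h3 : (Z s)ᴴ * Z s ≤ Z (2 * s) := this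
    rwa [h2] at h3
  -- inverse Jensen
  have hI : ∀ s, (Z s)⁻¹ ≤ Z (-s) := fun s => by
    have hn : ∀ x, ‖(1 : ℂ)‖ ^ 2 / Real.exp (s * f x) = Real.exp (-s * f x) := fun x => by
      rw [norm_one, one_pow, one_div, ← Real.exp_neg, neg_mul]
    have := schur hp (e := fun _ => 1) (v := fun x => Real.exp (s * f x))
      (ae_of_all _ fun _ => Real.exp_pos _) (hP.smul (1 : ℂ)) (hi s)
      (by simpa only [hn] using hi (-s)) (hpd s)
    simp only [hn, one_smul, h1, conjTranspose_one, Matrix.one_mul, Matrix.mul_one] at this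
    exact this
  have hL : ∀ j : ℕ, ((2 : ℝ) ^ j) • lg (Z (1 / 2 ^ j)) ≤ lg (Z 1) := fun j => by
    induction j with
    | zero => simp
    | succ j ih =>
      refine le_trans ?_ ih
      have h2 := lg_mono (posDef_mul (hpd _) (hpd _) (Commute.refl _)) (hK (1 / 2 ^ (j + 1)))
      rw [lg_mul (hpd _) (hpd _) (Commute.refl _), ← two_smul ℝ,
        show (2 : ℝ) * (1 / 2 ^ (j + 1)) = 1 / 2 ^ j by rw [pow_succ]; field_simp] at h2
      rw [pow_succ, mul_smul]
      exact rsmul_mono h2 (by positivity)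
  have hfi : Integrable (fun x => f x • P x) μ := integrable_bdd_smul hP hf hC
  have hS : ∀ s : ℝ, 0 < s → s ≤ 1 → s • ∫ x, f x • P x ∂μ ≤
      lg (Z s) + (s ^ 2 * (C ^ 2 * Real.exp |C|)) • (1 : Matrix m m ℂ) := fun s h0 hs => by
    have h2 : Z (-s) + s • ∫ x, f x • P x ∂μ ≤
        (1 + s ^ 2 * (C ^ 2 * Real.exp |C|)) • (1 : Matrix m m ℂ) := by
      have i1 : Integrable (fun x => s • f x • P x) μ := hfi.smul s
      rw [← hc, ← integral_smul, hZ, ← integral_add (hi (-s)) i1]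
      refine integral_mono_mat ((hi _).add i1)
        (hP.smul (1 + s ^ 2 * (C ^ 2 * Real.exp |C|))) ?_
      filter_upwards [hp, hC] with x hx h
      rw [smul_smul, ← add_smul]
      refine rsmul_le_rsmul hx ?_
      have h3 := Mom.exp_le_quad (-s * f x)
      have h4 : |-s * f x| ≤ |C| := by
        rw [abs_mul, abs_neg, abs_of_pos h0]
        nlinarith [abs_nonneg (f x), le_abs_self C]
      have h5 : (-s * f x) ^ 2 ≤ s ^ 2 * C ^ 2 := by
        rw [mul_pow, neg_sq, ← sq_abs (f x)]; gcongr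
      have h6 : (-s * f x) ^ 2 * Real.exp |-s * f x| ≤ s ^ 2 * C ^ 2 * Real.exp |C| := by gcongr
      linarith
    have h3 := one_sub_inv_le_lg (hpd s)
    have h4 := hI s
    rw [add_smul, one_smul] at h2
    calc s • ∫ x, f x • P x ∂μ = (Z (-s) + s • ∫ x, f x • P x ∂μ) - Z (-s) := by abel
      _ ≤ (1 + (s ^ 2 * (C ^ 2 * Real.exp |C|)) • (1 : Matrix m m ℂ)) - (Z s)⁻¹ :=
        sub_le_sub h2 h4
      _ = (1 - (Z s)⁻¹) + (s ^ 2 * (C ^ 2 * Real.exp |C|)) • (1 : Matrix m m ℂ) := by abel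
      _ ≤ _ := by gcongr
  have hZ1 : Z 1 = ∫ x, Real.exp (f x) • P x ∂μ := by simp only [hZ, one_mul]
  rw [← hZ1]
  refine ⟨hpd 1, le_of_forall_add_smul (isHermitian_integral (hp.mono fun x hx =>
    hx.1.smul (IsSelfAdjoint.all _))) (fr_isHermitian _ _) fun ε hε => ?_⟩
  set K := C ^ 2 * Real.exp |C| with hK
  obtain ⟨j, hj⟩ := pow_unbounded_of_one_lt (K / ε) (one_lt_two (α := ℝ))
  have hj0 : (0 : ℝ) < 2 ^ j := by positivity
  have h2 := rsmul_mono (hS (1 / 2 ^ j) (by positivity)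
    ((div_le_one hj0).2 (one_le_pow₀ one_le_two))) hj0.le
  rw [smul_smul, mul_one_div_cancel hj0.ne', one_smul, smul_add, smul_smul] at h2
  refine h2.trans (add_le_add (hL j) (rsmul_le_rsmul PosSemidef.one ?_))
  rw [div_lt_iff₀ hε] at hj
  rw [show (2 : ℝ) ^ j * ((1 / 2 ^ j) ^ 2 * K) = K / 2 ^ j by field_simp, div_le_iff₀ hj0]
  linarith

end povm

end Crest.Agent.N336.R
end

-- ▼ part N336/R/CohA
section

/-! # Row 336, replica package: coherent states, Berezin-Lieb -/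

set_option autoImplicit false
set_option linter.unusedSectionVars false

open Matrix Finset MeasureTheory Filter
open scoped ComplexOrder MatrixOrder Matrix.Norms.L2Operator InnerProductSpace Topology

namespace Crest.Agent.N336.R

open Crest.Agent.N336.Q Crest.Agent.N336.Eng Crest.Agent.N336.C

variable {n : Type} [Fintype n] [DecidableEq n] [Nonempty n] {k : ℕ}

instance : IsProbabilityMeasure (sm n) := by
  have : NeZero (Measure.addHaar : Measure (Q.Vec n)).toSphere :=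
    ⟨Measure.toSphere_ne_zero _⟩
  exact isProbabilityMeasureSMul

/-- a unitary as a continuous linear equivalence -/
noncomputable def uE {U : Matrix n n ℂ} (h1 : Uᴴ * U = 1) (h2 : U * Uᴴ = 1) :
    Q.Vec n ≃L[ℂ] Q.Vec n :=
  ContinuousLinearEquiv.equivOfInverse (ap U) (ap Uᴴ)
    (fun v => by rw [← ap_mul, h1, ap_one]) (fun v => by rw [← ap_mul, h2, ap_one])

lemma map_ap_addHaar {U : Matrix n n ℂ} (h1 : Uᴴ * U = 1) (h2 : U * Uᴴ = 1) :
    (Measure.addHaar : Measure (Q.Vec n)).map (ap U) = Measure.addHaar := by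
  have : ((Measure.addHaar : Measure (Q.Vec n)).map (ap U)).IsAddHaarMeasure :=
    (uE h1 h2).isAddHaarMeasure_map _
  have h := Measure.isAddLeftInvariant_eq_smul
    ((Measure.addHaar : Measure (Q.Vec n)).map (ap U)) Measure.addHaar
  have hb : ((Measure.addHaar : Measure (Q.Vec n)).map (ap U)) (Metric.ball 0 1) =
      Measure.addHaar (Metric.ball (0 : Q.Vec n) 1) := by
    rw [Measure.map_apply (ap U).continuous.measurable Metric.isOpen_ball.measurableSet]
    congr 1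
    ext v
    simp [norm_ap_unitary h1]
  have h0 : (Measure.addHaar : Measure (Q.Vec n)) (Metric.ball 0 1) ≠ 0 :=
    (Metric.measure_ball_pos _ _ one_pos).ne'
  rw [h, Measure.smul_apply, ENNReal.smul_def, smul_eq_mul] at hb
  have h3 := (ENNReal.mul_left_inj h0 measure_ball_lt_top.ne).1 (hb.trans (one_mul _).symm)
  rw [h, ENNReal.coe_eq_one.1 h3, one_smul]

/-- action of a unitary on the sphere -/
noncomputable def uS {U : Matrix n n ℂ} (h1 : Uᴴ * U = 1) (χ : Sph n) : Sph n :=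
  ⟨ap U χ.1, by rw [mem_sphere_zero_iff_norm, norm_ap_unitary h1, norm_eq_of_mem_sphere]⟩

lemma continuous_uS {U : Matrix n n ℂ} (h1 : Uᴴ * U = 1) : Continuous (uS h1) :=
  ((ap U).continuous.comp continuous_subtype_val).subtype_mk _

open scoped Pointwise in
lemma map_uS {U : Matrix n n ℂ} (h1 : Uᴴ * U = 1) (h2 : U * Uᴴ = 1) :
    (sm n).map (uS h1) = sm n := by
  have key : (Measure.addHaar : Measure (Q.Vec n)).toSphere.map (uS h1) =
      (Measure.addHaar : Measure (Q.Vec n)).toSphere := by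
    ext s hs
    rw [Measure.map_apply (continuous_uS h1).measurable hs,
      Measure.toSphere_apply' _ ((continuous_uS h1).measurable hs), Measure.toSphere_apply' _ hs]
    congr 1
    conv_rhs => rw [← map_ap_addHaar h1 h2]
    have := (uE h1 h2).toHomeomorph.toMeasurableEquiv.map_apply
      (μ := (Measure.addHaar : Measure (Q.Vec n))) (Set.Ioo (0 : ℝ) 1 • (Subtype.val '' s))
    refine Eq.trans ?_ this.symm
    congr 1
    ext v
    simp only [Set.mem_preimage, Set.mem_smul, Set.mem_image]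
    change _ ↔ ∃ a ∈ Set.Ioo (0 : ℝ) 1, ∃ b, (∃ x ∈ s, ↑x = b) ∧ a • b = ap U v
    constructor
    · rintro ⟨a, ha, _, ⟨x, hx, rfl⟩, rfl⟩
      exact ⟨a, ha, _, ⟨_, hx, rfl⟩, ((ap U).map_smul_of_tower a x.1).symm⟩
    · rintro ⟨a, ha, _, ⟨x, hx, rfl⟩, h⟩
      have h3 : (Uᴴ)ᴴ * Uᴴ = 1 := by rw [conjTranspose_conjTranspose, h2]
      refine ⟨a, ha, _, ⟨uS h3 x, ?_, rfl⟩, ?_⟩
      · have : uS h1 (uS h3 x) = x := Subtype.ext (by
          change ap U (ap Uᴴ x.1) = x.1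
          rw [← ap_mul, h2, ap_one])
        rwa [this]
      · change a • ap Uᴴ x.1 = v
        rw [← (ap Uᴴ).map_smul_of_tower, h, ← ap_mul, h1, ap_one]
  rw [sm, Measure.map_smul, key]

lemma integral_uS {U : Matrix n n ℂ} (h1 : Uᴴ * U = 1) (h2 : U * Uᴴ = 1) {E : Type*}
    [NormedAddCommGroup E] [NormedSpace ℝ E] {F : Sph n → E} (hF : Continuous F) :
    ∫ χ, F (uS h1 χ) ∂(sm n) = ∫ χ, F χ ∂(sm n) := by
  rw [← integral_map (continuous_uS h1).measurable.aemeasurable hF.aestronglyMeasurable,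
    map_uS h1 h2]

lemma integrable_sm {E : Type*} [NormedAddCommGroup E] {F : Sph n → E} (hF : Continuous F) :
    Integrable F (sm n) :=
  hF.integrable_of_hasCompactSupport (HasCompactSupport.of_compactSpace _)

lemma norm_sph (χ : Sph n) : ‖χ.1‖ = 1 := norm_eq_of_mem_sphere χ

lemma continuous_pj_cv (k : ℕ) : Continuous fun χ : Sph n => pj (cv k χ.1) :=
  continuous_pj.comp ((continuous_cv k).comp continuous_subtype_val)

lemma continuous_tp_pj (k : ℕ) : Continuous fun χ : Sph n => tp k (pj χ.1) :=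
  (continuous_tp k).comp (continuous_pj.comp continuous_subtype_val)

/-- the averaged product projection -/
noncomputable def G0 (k : ℕ) (n : Type) [Fintype n] [DecidableEq n] : Mk k n :=
  ∫ χ, tp k (pj χ.1) ∂(sm n)

lemma G0_commute_unitary (k : ℕ) {U : Matrix n n ℂ} (h1 : Uᴴ * U = 1) (h2 : U * Uᴴ = 1) :
    Commute (G0 k n) (tp k U) := by
  have hi := integrable_sm (continuous_tp_pj (n := n) k)
  have h : G0 k n = tp k U * G0 k n * tp k Uᴴ := by
    rw [G0, ← integral_const_mul_of_integrable hi, ← integral_mul_const_of_integrable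
      (hi.const_mul _), ← integral_uS h1 h2 (continuous_tp_pj k)]
    refine integral_congr_ae (ae_of_all _ fun χ => ?_)
    change tp k (pj (ap U χ.1)) = _
    rw [pj_ap, tp_mul, tp_mul]
  change G0 k n * tp k U = tp k U * G0 k n
  conv_lhs => rw [h]
  rw [Matrix.mul_assoc, ← tp_mul, h1, tp_one, Matrix.mul_one]

lemma G0_commute_dG (k : ℕ) {A : Matrix n n ℂ} (hA : A.IsHermitian) :
    Commute (G0 k n) (dG k A) := by
  refine commute_dG_of_unitary hA fun t => G0_commute_unitary k ?_ ?_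
  all_goals
    rw [fc_conjTranspose, fc_mul, ← fc_one A]
    refine fc_congr fun i => ?_
    rw [Complex.star_def, ← Complex.exp_conj, ← Complex.exp_add]
    simp

lemma G0_isHermitian (k : ℕ) : (G0 k n).IsHermitian :=
  isHermitian_integral (ae_of_all _ fun _ => tp_isHermitian k (pj_isHermitian _))

lemma G0_eig (k : ℕ) {v : Q.Vec n} (hv : ‖v‖ = 1) :
    ap (G0 k n) (tv k v) = ⟪tv k v, ap (G0 k n) (tv k v)⟫_ℂ • tv k v := by
  have h : Commute (G0 k n) (tp k (pj v)) :=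
    commute_tp_of_dG (pj_posSemidef v) fun g => G0_commute_dG k (fr_isHermitian _ _)
  rw [tp_pj] at h
  have h1 := congrArg (fun M => ap M (tv k v)) h.eq
  simp only [ap_mul, ap_kb, inner_self_eq_norm_sq_to_K, norm_tv, hv] at h1
  simpa using h1

lemma G0_const (k : ℕ) {v w : Q.Vec n} (hv : ‖v‖ = 1) (hw : ‖w‖ = 1) (h : ⟪v, w⟫_ℂ ≠ 0) :
    ⟪tv k v, ap (G0 k n) (tv k v)⟫_ℂ = ⟪tv k w, ap (G0 k n) (tv k w)⟫_ℂ := by
  have h1 := inner_ap_right (G0 k n) (tv k v) (tv k w)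
  rw [(G0_isHermitian k).eq, G0_eig k hv, G0_eig k hw, inner_smul_right, inner_smul_left,
    inner_tv, Complex.conj_eq_iff_im.2 (im_inner_ap (G0_isHermitian k) _)] at h1
  exact (mul_right_cancel₀ (pow_ne_zero k h) h1).symm

lemma G0_const' (k : ℕ) {v w : Q.Vec n} (hv : ‖v‖ = 1) (hw : ‖w‖ = 1) :
    ⟪tv k v, ap (G0 k n) (tv k v)⟫_ℂ = ⟪tv k w, ap (G0 k n) (tv k w)⟫_ℂ := by
  by_cases h : ⟪v, w⟫_ℂ = 0
  · have h' : ⟪w, v⟫_ℂ = 0 := by rw [← inner_conj_symm, h, map_zero]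
    have h1 : ⟪v, v + w⟫_ℂ = 1 := by
      rw [inner_add_right, h, inner_self_eq_norm_sq_to_K, hv]; simp
    have h2 : ⟪w, v + w⟫_ℂ = 1 := by
      rw [inner_add_right, h', inner_self_eq_norm_sq_to_K, hw]; simp
    have h0 : ‖v + w‖ ≠ 0 := fun h0 => by
      rw [norm_eq_zero.1 h0, inner_zero_right] at h1; exact zero_ne_one h1
    have hc : ((‖v + w‖ : ℂ))⁻¹ ≠ 0 := inv_ne_zero (by exact_mod_cast h0)
    have hu : ‖((‖v + w‖ : ℂ))⁻¹ • (v + w)‖ = 1 := by
      rw [norm_smul, norm_inv, Complex.norm_real, norm_norm, inv_mul_cancel₀ h0]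
    rw [G0_const k hv hu (by rwa [inner_smul_right, h1, mul_one]),
      G0_const k hw hu (by rwa [inner_smul_right, h2, mul_one])]
  · exact G0_const k hv hw h

/-- compression as a continuous linear map -/
noncomputable def cmpL (k : ℕ) (n : Type) [Fintype n] [DecidableEq n] : Mk k n →L[ℂ] Ms k n :=
  LinearMap.toContinuousLinearMap
    { toFun := cmp, map_add' := cmp_add, map_smul' := cmp_smul }

lemma cmp_integral {X : Type*} [MeasurableSpace X] {μ : Measure X} {F : X → Mk k n}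
    (hF : Integrable F μ) : cmp (∫ x, F x ∂μ) = ∫ x, cmp (F x) ∂μ :=
  ((cmpL k n).integral_comp_comm hF).symm

/-- trace as a continuous linear map -/
noncomputable def trL (m : Type) [Fintype m] [DecidableEq m] : Matrix m m ℂ →L[ℂ] ℂ :=
  LinearMap.toContinuousLinearMap (Matrix.traceLinearMap m ℂ ℂ)

lemma trace_integral {m : Type} [Fintype m] [DecidableEq m] {X : Type*} [MeasurableSpace X]
    {μ : Measure X} {F : X → Matrix m m ℂ} (hF : Integrable F μ) :
    trace (∫ x, F x ∂μ) = ∫ x, trace (F x) ∂μ :=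
  ((trL m).integral_comp_comm hF).symm

lemma norm_cv_sph (k : ℕ) (χ : Sph n) : ‖cv k χ.1‖ = 1 := by rw [norm_cv, norm_sph, one_pow]

lemma dk_smul_integral (k : ℕ) :
    (dk k n : ℂ) • ∫ χ, pj (cv k χ.1) ∂(sm n) = (1 : Ms k n) := by
  obtain ⟨v, hv⟩ := exists_norm_eq (Q.Vec n) zero_le_one
  set a := ⟪tv k v, ap (G0 k n) (tv k v)⟫_ℂ
  have h1 : ∫ χ, pj (cv k χ.1) ∂(sm n) = cmp (G0 k n) := by
    rw [G0, cmp_integral (integrable_sm (continuous_tp_pj k))]
    simp only [cmp_tp_pj]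
  have hs : Sy (G0 k n - a • 1) := (Sy.integral fun _ => sy_tp _ _).sub (sy_one.smul a)
  have h2 : cmp (G0 k n) = a • (1 : Ms k n) := by
    rw [← sub_eq_zero, ← cmp_one, ← cmp_smul, ← cmp_sub]
    refine ext_cv fun χ hχ => ?_
    rw [← norm_eq_zero, norm_ap_cmp_cv hs, ap_sub, ap_smul, ap_one, G0_eig k hχ,
      G0_const' k hχ hv, sub_self, norm_zero]
  have h3 := trace_integral (integrable_sm (continuous_pj_cv (n := n) k))
  simp only [trace_pj, norm_cv_sph, one_pow, integral_const, probReal_univ, one_smul] at h3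
  rw [h1, h2, trace_smul, trace_one, smul_eq_mul, Complex.ofReal_one] at h3
  rw [h1, h2, smul_smul, mul_comm, h3, one_smul]

theorem Tc_one (k : ℕ) : Tc k (fun _ : Sph n => 1) = 1 := by
  simp only [Tc, one_smul, dk_smul_integral]

lemma integrable_Tc (k : ℕ) {f : Sph n → ℂ} (hf : Continuous f) :
    Integrable (fun χ : Sph n => f χ • pj (cv k χ.1)) (sm n) :=
  integrable_sm (hf.smul (continuous_pj_cv k))

lemma Tc_add (k : ℕ) {f g : Sph n → ℂ} (hf : Continuous f) (hg : Continuous g) :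
    Tc k (fun χ => f χ + g χ) = Tc k f + Tc k g := by
  simp only [Tc, add_smul]
  rw [integral_add (integrable_Tc k hf) (integrable_Tc k hg), smul_add]

lemma Tc_sub (k : ℕ) {f g : Sph n → ℂ} (hf : Continuous f) (hg : Continuous g) :
    Tc k (fun χ => f χ - g χ) = Tc k f - Tc k g := by
  simp only [Tc, sub_smul]
  rw [integral_sub (integrable_Tc k hf) (integrable_Tc k hg), smul_sub]

lemma Tc_smul (k : ℕ) (c : ℂ) (f : Sph n → ℂ) : Tc k (fun χ => c * f χ) = c • Tc k f := by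
  simp only [Tc, mul_smul]
  rw [integral_smul, smul_comm]


lemma Tc_const (k : ℕ) (c : ℂ) : Tc k (fun _ : Sph n => c) = c • (1 : Ms k n) := by
  rw [← Tc_one, ← Tc_smul]; simp only [mul_one]

lemma Tc_conj (k : ℕ) (f : Sph n → ℂ) : Tc k (fun χ => star (f χ)) = (Tc k f)ᴴ := by
  simp only [Tc, conjTranspose_smul, ← integral_conjTranspose, (pj_isHermitian _).eq,
    star_natCast]

lemma Tr_isHermitian (k : ℕ) (f : Sph n → ℝ) : (Tr k f).IsHermitian := by
  unfold Matrix.IsHermitian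
  rw [← Tc_conj]
  simp only [Complex.star_def, Complex.conj_ofReal]

/-- the density of the coherent state POVM -/
noncomputable def PP (k : ℕ) (χ : Sph n) : Ms k n := (dk k n : ℝ) • pj (cv k χ.1)

lemma PP_posSemidef (k : ℕ) (χ : Sph n) : (PP k χ).PosSemidef :=
  (pj_posSemidef _).smul (Nat.cast_nonneg _)

lemma continuous_PP (k : ℕ) : Continuous (PP k : Sph n → Ms k n) :=
  (continuous_pj_cv k).const_smul (dk k n : ℝ)

lemma Tc_eq (k : ℕ) (f : Sph n → ℂ) : Tc k f = ∫ χ, f χ • PP k χ ∂(sm n) := by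
  rw [Tc, ← integral_smul]
  refine integral_congr_ae (ae_of_all _ fun χ => ?_)
  simp only [PP, rsmul_eq, Complex.ofReal_natCast]
  rw [smul_comm]

lemma Tr_eq (k : ℕ) (f : Sph n → ℝ) : Tr k f = ∫ χ, f χ • PP k χ ∂(sm n) := Tc_eq k _

lemma integral_PP (k : ℕ) : ∫ χ, PP k χ ∂(sm n) = 1 := by
  simpa only [Tc_eq, one_smul] using Tc_one (n := n) k

lemma Tr_const (k : ℕ) (c : ℝ) : Tr k (fun _ : Sph n => c) = c • (1 : Ms k n) := Tc_const k c

lemma Tr_mono (k : ℕ) {f g : Sph n → ℝ} (hf : Continuous f) (hg : Continuous g)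
    (h : ∀ χ, f χ ≤ g χ) : Tr k f ≤ Tr k g := by
  rw [Tr_eq, Tr_eq]
  exact integral_mono_mat (integrable_sm (hf.smul (continuous_PP k)))
    (integrable_sm (hg.smul (continuous_PP k)))
    (ae_of_all _ fun χ => rsmul_le_rsmul (PP_posSemidef k χ) (h χ))

lemma Tr_posDef (k : ℕ) {v : Sph n → ℝ} (hv : Continuous v) (h : ∀ χ, 0 < v χ) :
    (Tr k v).PosDef := by
  obtain ⟨w, hw⟩ := exists_norm_eq (Q.Vec n) zero_le_one
  have : Nonempty (Sph n) := ⟨⟨w, mem_sphere_zero_iff_norm.2 hw⟩⟩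
  obtain ⟨χ, -, hχ⟩ := isCompact_univ.exists_isMinOn Set.univ_nonempty hv.continuousOn
  refine posDef_of_le (PosDef.one.smul (h χ)) ?_
  rw [← Tr_const]
  exact Tr_mono k continuous_const hv fun χ' => hχ (Set.mem_univ χ')

lemma Tc_schur (k : ℕ) {e : Sph n → ℂ} {v : Sph n → ℝ} (he : Continuous e) (hv : Continuous v)
    (h : ∀ χ, 0 < v χ) :
    (Tc k e)ᴴ * (Tr k v)⁻¹ * Tc k e ≤ Tr k fun χ => ‖e χ‖ ^ 2 / v χ := by
  have hp := Tr_posDef k hv h
  rw [Tr_eq] at hp
  rw [Tr_eq, Tr_eq, Tc_eq]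
  exact schur (ae_of_all _ (PP_posSemidef k)) (ae_of_all _ h)
    (integrable_sm (he.smul (continuous_PP k))) (integrable_sm (hv.smul (continuous_PP k)))
    (integrable_sm (((he.norm.pow 2).div hv fun χ => (h χ).ne').smul (continuous_PP k))) hp

lemma norm_Tc_le (k : ℕ) {f : Sph n → ℂ} (hf : Continuous f) {C : ℝ} (h : ∀ χ, ‖f χ‖ ≤ C) :
    ‖Tc k f‖ ≤ C := by
  obtain ⟨w, hw⟩ := exists_norm_eq (Q.Vec n) zero_le_one
  have hC : 0 ≤ C := (norm_nonneg _).trans (h ⟨w, mem_sphere_zero_iff_norm.2 hw⟩)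
  have h1 := Tc_schur k hf (v := fun _ => 1) continuous_const fun _ => one_pos
  rw [Tr_const, one_smul, inv_one, Matrix.mul_one] at h1
  have h2 : Tr k (fun χ => ‖f χ‖ ^ 2 / 1) ≤ Tr k fun _ : Sph n => C ^ 2 :=
    Tr_mono k ((hf.norm.pow 2).div_const 1) continuous_const fun χ => by
      rw [div_one]; exact pow_le_pow_left₀ (norm_nonneg _) (h χ) 2
  rw [Tr_const] at h2
  have h3 := (le_smul_one_iff (posSemidef_conjTranspose_mul_self _) (sq_nonneg C)).1 (h1.trans h2)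
  rw [l2_opNorm_conjTranspose_mul_self, ← sq] at h3
  exact (pow_le_pow_iff_left₀ (norm_nonneg _) hC two_ne_zero).1 h3

/-- the Toeplitz map as a linear map -/
noncomputable def TL (k : ℕ) (n : Type) [Fintype n] [DecidableEq n] [Nonempty n] :
    C(Sph n, ℝ) →ₗ[ℝ] Ms k n where
  toFun f := Tr k f
  map_add' f g := by
    simp only [Tr, ContinuousMap.add_apply, Complex.ofReal_add]
    exact Tc_add k (Complex.continuous_ofReal.comp f.continuous)
      (Complex.continuous_ofReal.comp g.continuous)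
  map_smul' c f := by
    rw [RingHom.id_apply, rsmul_eq, ← Tc_smul]
    simp only [Tr, ContinuousMap.smul_apply, smul_eq_mul, Complex.ofReal_mul]


lemma pj_le_qf_smul_inv {m : Type} [Fintype m] [DecidableEq m] {M : Matrix m m ℂ} (hM : M.PosDef)
    (v : Q.Vec m) : pj v ≤ qf v M • M⁻¹ := by
  have h1 : ‖ap (pw M (1 / 2)) v‖ ^ 2 = qf v M := by
    rw [norm_ap_pw_sq hM, mul_one_div_cancel two_ne_zero, pw_one hM.1]
  have h2 : pj (ap (pw M (1 / 2)) v) ≤ qf v M • (1 : Matrix m m ℂ) :=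
    (le_smul_one_iff (pj_posSemidef _) (re_inner_ap_nonneg hM.posSemidef v)).2
      ((norm_kb_le _ _).trans (le_of_eq ((sq _).symm.trans h1)))
  have h3 := conj_mono h2 (pw M (-(1 / 2)))
  rwa [pj_ap, pw_conjTranspose, pw_conjTranspose, ← Matrix.mul_assoc, ← Matrix.mul_assoc,
    pw_neg_mul hM, Matrix.one_mul, Matrix.mul_assoc, pw_mul_neg hM, Matrix.mul_one,
    Matrix.mul_smul, Matrix.mul_one, Matrix.smul_mul, pw_mul_pw hM,
    show -(1 / 2 : ℝ) + -(1 / 2) = -1 by norm_num, pw_neg_one hM] at h3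

/-- Berezin-Lieb -/
theorem bl {M : Ms k n} (hM : M.PosDef) {g : Sph n → ℝ} (hg : Continuous g)
    (h : ∀ χ : Sph n, Real.log (qf (cv k χ.1) M) ≤ g χ) :
    lg M ≤ Tr k g + Real.log (dk k n) • (1 : Ms k n) := by
  obtain ⟨C, hC⟩ := isCompact_univ.exists_bound_of_continuousOn hg.neg.continuousOn
  obtain ⟨h1, h2⟩ := povm_log (integrable_sm (continuous_PP k)) (ae_of_all _ (PP_posSemidef k))
    (integral_PP k) hg.neg.aestronglyMeasurable (ae_of_all _ fun χ => hC χ (Set.mem_univ _))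
  have hd : (0 : ℝ) < dk k n := by exact_mod_cast dk_pos k
  have h3 : ∫ χ, Real.exp ((-g) χ) • PP k χ ∂(sm n) ≤ (dk k n : ℝ) • M⁻¹ := by
    refine (integral_mono_mat (G := fun _ => (dk k n : ℝ) • M⁻¹) (integrable_sm
      ((Real.continuous_exp.comp hg.neg).smul (continuous_PP k))) (integrable_const _)
      (ae_of_all _ fun χ => ?_)).trans (by simp)
    change Real.exp ((-g) χ) • (dk k n : ℝ) • pj (cv k χ.1) ≤ (dk k n : ℝ) • M⁻¹
    rw [smul_comm]
    refine rsmul_mono ?_ hd.le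
    refine (rsmul_mono (pj_le_qf_smul_inv hM _) (Real.exp_pos _).le).trans ?_
    rw [smul_smul]
    conv_rhs => rw [← one_smul ℝ M⁻¹]
    refine rsmul_le_rsmul hM.inv.posSemidef ?_
    rw [Pi.neg_apply, Real.exp_neg, inv_mul_le_iff₀ (Real.exp_pos _), mul_one]
    exact (Real.le_exp_log _).trans (Real.exp_le_exp.2 (h χ))
  have h4 := h2.trans (lg_mono h1 h3)
  rw [lg_smul hM.inv hd, lg_inv hM] at h4
  simp only [Pi.neg_apply, neg_smul, integral_neg, ← Tr_eq] at h4
  rw [Matrix.le_iff] at h4 ⊢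
  have e : Tr k g + Real.log (dk k n) • (1 : Ms k n) - lg M =
      -lg M + Real.log (dk k n) • (1 : Ms k n) - -Tr k g := by abel
  rwa [e]

theorem le_dk_smul {M : Ms k n} (hM : M.PosSemidef) {c : ℝ}
    (h : ∀ χ : Sph n, qf (cv k χ.1) M ≤ c) : M ≤ (dk k n * c) • (1 : Ms k n) := by
  have hi := integrable_sm (continuous_PP (n := n) k)
  have h1 : trace M = ∫ χ, trace (M * PP k χ) ∂(sm n) := by
    rw [← trace_integral (hi.const_mul M), integral_const_mul_of_integrable hi, integral_PP,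
      Matrix.mul_one]
  have h2 : (trace M).re ≤ dk k n * c := by
    have h3 := Complex.reCLM.integral_comp_comm ((trL _).integrable_comp (hi.const_mul M))
    rw [h1]
    refine le_trans (le_of_eq h3.symm) ?_
    refine (integral_mono (Complex.reCLM.integrable_comp ((trL _).integrable_comp
      (hi.const_mul M))) (integrable_const ((dk k n : ℝ) * c)) fun χ => ?_).trans (by simp)
    change (trace (M * PP k χ)).re ≤ dk k n * c
    rw [PP, Matrix.mul_smul, trace_smul, trace_mul_kb, Complex.smul_re, smul_eq_mul]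
    exact mul_le_mul_of_nonneg_left (h χ) (Nat.cast_nonneg _)
  rw [trace_eq_sum_ev hM.1, Complex.ofReal_re] at h2
  refine le_of_ev_le hM.1 fun i => le_trans ?_ h2
  exact Finset.single_le_sum (fun j _ => ev_nonneg hM j) (Finset.mem_univ i)

/-- Schur complement bound -/
theorem Tc_defect (k : ℕ) {c : Sph n → ℂ} {v : Sph n → ℝ} (hc : Continuous c) (hv : Continuous v)
    (h : ∀ χ, 0 < v χ) : (Tr k v).PosDef ∧
      (Tc k c - Tr k v)ᴴ * (Tr k v)⁻¹ * (Tc k c - Tr k v) ≤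
        Tr k fun χ => ‖c χ - v χ‖ ^ 2 / v χ := by
  have hv' : Continuous fun χ => (v χ : ℂ) := Complex.continuous_ofReal.comp hv
  rw [← Tc_sub k hc hv']
  exact ⟨Tr_posDef k hv h, Tc_schur k (hc.sub hv') hv h⟩

end Crest.Agent.N336.R
end

-- ▼ part N336/R/CohB
section

/-! # Row 336, replica package: coherent states, Berezin-Lieb, symbols -/

set_option autoImplicit false
set_option linter.unusedSectionVars false

open Matrix Finset MeasureTheory Filter
open scoped ComplexOrder MatrixOrder Matrix.Norms.L2Operator InnerProductSpace Topology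

namespace Crest.Agent.N336.R

open Crest.Agent.N336.Q Crest.Agent.N336.Eng Crest.Agent.N336.C

namespace CB

section schur
variable {X : Type*} [TopologicalSpace X] [CompactSpace X] [MeasurableSpace X] [BorelSpace X]
  [SecondCountableTopology X] {μ : Measure X} [IsFiniteMeasure μ]

lemma intg {E : Type*} [NormedAddCommGroup E] {f : X → E} (hf : Continuous f) : Integrable f μ :=
  hf.integrable_of_hasCompactSupport (HasCompactSupport.of_compactSpace f)

lemma cont_int {S : X → X → ℝ} (hS : Continuous (Function.uncurry S)) :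
    Integrable (fun x => ∫ y, S x y ∂μ) μ :=
  (intg (μ := μ.prod μ) hS).integral_prod_left

/-- Schur test -/
lemma schurT {S : X → X → ℝ} (hS : Continuous (Function.uncurry S)) (h0 : ∀ x y, 0 ≤ S x y)
    (hs : ∀ x y, S x y = S y x) {e : ℝ} (he : ∀ x, ∫ y, S x y ∂μ ≤ e) {a b : X → ℝ}
    (ha : Continuous a) (hb : Continuous b) :
    ∫ x, a x * ∫ y, S x y * b y ∂μ ∂μ ≤ e * ((∫ x, a x ^ 2 ∂μ + ∫ x, b x ^ 2 ∂μ) / 2) := by
  have hS' : ∀ x, Continuous (S x) := fun x => hS.uncurry_left x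
  have c1 : Continuous (Function.uncurry fun x y => S x y * b y ^ 2) :=
    hS.mul ((hb.comp continuous_snd).pow 2)
  have c2 : Continuous (Function.uncurry fun x y => S x y * b y) :=
    hS.mul (hb.comp continuous_snd)
  have h1 : ∀ x, a x * ∫ y, S x y * b y ∂μ ≤
      (e * a x ^ 2 + ∫ y, S x y * b y ^ 2 ∂μ) / 2 := fun x => by
    have : a x * ∫ y, S x y * b y ∂μ ≤ ∫ y, (S x y * a x ^ 2 + S x y * b y ^ 2) / 2 ∂μ := by
      rw [← integral_const_mul]
      refine integral_mono (intg (by fun_prop)) (intg (by fun_prop)) fun y => ?_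
      have := mul_nonneg (h0 x y) (sq_nonneg (a x - b y))
      dsimp only
      nlinarith
    rw [integral_div, integral_add (intg (by fun_prop)) (intg (by fun_prop)),
      integral_mul_const] at this
    have := mul_le_mul_of_nonneg_right (he x) (sq_nonneg (a x))
    linarith
  have h2 : ∫ x, ∫ y, S x y * b y ^ 2 ∂μ ∂μ ≤ e * ∫ x, b x ^ 2 ∂μ := by
    rw [integral_integral_swap (intg (μ := μ.prod μ) c1), ← integral_const_mul]
    refine integral_mono (intg (μ := μ.prod μ) c1).integral_prod_right (intg (by fun_prop))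
      fun y => ?_
    dsimp only
    rw [integral_mul_const]
    refine mul_le_mul_of_nonneg_right ?_ (sq_nonneg _)
    simpa only [hs _ y] using he y
  obtain ⟨C, hC⟩ := isCompact_univ.exists_bound_of_continuousOn ha.continuousOn
  calc ∫ x, a x * ∫ y, S x y * b y ∂μ ∂μ
      ≤ ∫ x, (e * a x ^ 2 + ∫ y, S x y * b y ^ 2 ∂μ) / 2 ∂μ := by
        refine integral_mono ?_ (((intg (by fun_prop)).add (cont_int c1)).div_const 2) h1
        exact (cont_int c2).bdd_mul ha.aestronglyMeasurable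
          (Eventually.of_forall fun x => hC x (Set.mem_univ x))
    _ ≤ _ := by
        rw [integral_div, integral_add (intg (by fun_prop)) (cont_int c1), integral_const_mul]
        linarith

end schur

section mat
variable {m : Type} [Fintype m] [DecidableEq m]

/-- matrix elements as a continuous linear functional -/
noncomputable def mel (u w : Q.Vec m) : Matrix m m ℂ →L[ℂ] ℂ :=
  LinearMap.toContinuousLinearMap
    { toFun := fun M => ⟪u, ap M w⟫_ℂ
      map_add' := fun M N => by rw [ap_add, inner_add_right]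
      map_smul' := fun c M => by rw [ap_smul, inner_smul_right]; rfl }

lemma mel_apply (u w : Q.Vec m) (M : Matrix m m ℂ) : mel u w M = ⟪u, ap M w⟫_ℂ := rfl

lemma norm_le_of_inner {M : Matrix m m ℂ} {c : ℝ} (hc : 0 ≤ c)
    (h : ∀ u w : Q.Vec m, ‖u‖ = 1 → ‖w‖ = 1 → ‖⟪u, ap M w⟫_ℂ‖ ≤ c) : ‖M‖ ≤ c := by
  rw [← norm_ap]
  refine ContinuousLinearMap.opNorm_le_of_unit_norm hc fun w hw => ?_
  by_cases h0 : ap M w = 0
  · rw [h0, norm_zero]; exact hc
  have hn : 0 < ‖ap M w‖ := norm_pos_iff.2 h0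
  have := h (((‖ap M w‖⁻¹ : ℝ) : ℂ) • ap M w) w
    (by rw [norm_smul, Complex.norm_real, norm_inv, norm_norm, inv_mul_cancel₀ hn.ne']) hw
  rw [inner_smul_left, inner_self_eq_norm_sq_to_K, norm_mul, Complex.conj_ofReal,
    Complex.norm_real, norm_inv, norm_norm, norm_pow] at this
  simp only [Complex.coe_algebraMap, Complex.norm_real, norm_norm] at this
  rwa [sq, inv_mul_cancel_left₀ hn.ne'] at this

lemma qf_rs (c : ℝ) (M : Matrix m m ℂ) (v : Q.Vec m) : qf v (c • M) = c * qf v M :=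
  qf_smul c M v

lemma herm_rsmul {M : Matrix m m ℂ} (h : M.IsHermitian) (c : ℝ) : (c • M).IsHermitian := by
  rw [IsHermitian, conjTranspose_smul, h.eq, star_trivial]

lemma norm_le_of_two {M : Matrix m m ℂ} {c : ℝ} (hc : 0 ≤ c) (h1 : M ≤ c • (1 : Matrix m m ℂ))
    (h2 : -M ≤ c • (1 : Matrix m m ℂ)) : ‖M‖ ≤ c := by
  have hM : M.IsHermitian := by
    have := (herm_rsmul isHermitian_one c).sub (Matrix.le_iff.1 h1).1
    rwa [sub_sub_cancel] at this
  rw [← fc_id hM]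
  refine norm_fc_le hc fun i => ?_
  have e1 := re_inner_ap_mono h1 (evec M i)
  have e2 := re_inner_ap_mono h2 (evec M i)
  change qf _ _ ≤ qf _ _ at e1 e2
  rw [qf_rs, qf_one, norm_evec] at e1 e2
  rw [qf_neg] at e2
  rw [Complex.norm_real, Real.norm_eq_abs, ev_eq_re_inner hM, abs_le]
  constructor <;> linarith

lemma qf_ee_le {B : Matrix m m ℂ} (hB : B.IsHermitian) {v : Q.Vec m} (hv : ‖v‖ = 1) :
    qf v (ee B) ≤ 1 + (qf v B + ‖B‖ ^ 2 * Real.exp ‖B‖) := by
  have := qf_fr_le_lin (A := B) (g := Real.exp) (k₁ := fun x => x) (k₂ := fun x => x)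
    (k₃ := fun x => x) (a := 1 + ‖B‖ ^ 2 * Real.exp ‖B‖) (b₁ := 1) (b₂ := 0) (b₃ := 0) hv
    fun i => by
      have h1 := Mom.exp_le_quad (ev B i)
      have h2 := abs_ev_le hB i
      have h3 : ev B i ^ 2 * Real.exp |ev B i| ≤ ‖B‖ ^ 2 * Real.exp ‖B‖ := by
        rw [← sq_abs]; gcongr
      linarith
  rw [fr_id hB] at this
  linarith

lemma pj_smul_of_norm {c : ℂ} (hc : ‖c‖ = 1) (v : Q.Vec m) : pj (c • v) = pj v := by
  rw [pj, kb_smul_left, kb_smul_right, smul_smul, Complex.star_def, Complex.mul_conj,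
    Complex.normSq_eq_norm_sq, hc]
  simp

end mat

variable {n : Type} [Fintype n] [DecidableEq n] [Nonempty n] {k : ℕ}

lemma norm_sph (χ : Sph n) : ‖χ.1‖ = 1 := mem_sphere_zero_iff_norm.1 χ.2

lemma cont_cv (k : ℕ) : Continuous fun χ : Sph n => cv k χ.1 :=
  (continuous_cv k).comp continuous_subtype_val

lemma inner_Tc (k : ℕ) {f : Sph n → ℂ} (hf : Continuous f) (u w : Q.Vec (Sym n k)) :
    ⟪u, ap (Tc k f) w⟫_ℂ =
      dk k n * ∫ χ, f χ * (⟪u, cv k χ.1⟫_ℂ * ⟪cv k χ.1, w⟫_ℂ) ∂(sm n) := by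
  rw [← mel_apply, Tc, map_smul, smul_eq_mul, ← ContinuousLinearMap.integral_comp_comm _
    (intg (f := fun χ : Sph n => f χ • pj (cv k χ.1)) (hf.smul (continuous_pj.comp (cont_cv k))))]
  congr 1
  refine integral_congr_ae (Eventually.of_forall fun χ => ?_)
  simp only [map_smul, mel_apply, smul_eq_mul, ap_kb, inner_smul_right]
  ring

lemma inner_eq_int (k : ℕ) (u w : Q.Vec (Sym n k)) :
    ⟪u, w⟫_ℂ = dk k n * ∫ χ, ⟪u, cv k χ.1⟫_ℂ * ⟪cv k χ.1, w⟫_ℂ ∂(sm n) := by
  have := inner_Tc k (f := fun _ : Sph n => 1) continuous_const u w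
  rw [Tc_one, ap_one] at this
  simpa using this

lemma parseval (k : ℕ) (w : Q.Vec (Sym n k)) :
    dk k n * ∫ χ, ‖⟪cv k χ.1, w⟫_ℂ‖ ^ 2 ∂(sm n) = ‖w‖ ^ 2 := by
  have := inner_eq_int k w w
  rw [inner_self_eq_norm_sq_to_K] at this
  have h2 : ∀ χ : Sph n, ⟪w, cv k χ.1⟫_ℂ * ⟪cv k χ.1, w⟫_ℂ =
      ((‖⟪cv k χ.1, w⟫_ℂ‖ ^ 2 : ℝ) : ℂ) := fun χ => by
    rw [← inner_conj_symm w, Complex.conj_mul']; norm_cast
  simp only [h2, integral_complex_ofReal] at this
  refine Complex.ofReal_injective ?_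
  push_cast at this ⊢
  exact this.symm

lemma kernel_int (j : ℕ) (χ : Sph n) :
    dk j n * ∫ χ', ‖⟪χ.1, χ'.1⟫_ℂ‖ ^ (2 * j) ∂(sm n) = 1 := by
  have := parseval j (cv j χ.1)
  rw [norm_cv, norm_sph, one_pow, one_pow] at this
  refine Eq.trans ?_ this
  congr 1
  refine integral_congr_ae (Eventually.of_forall fun χ' => ?_)
  simp only [inner_cv, norm_pow]
  rw [norm_inner_symm, pow_mul']

lemma exists_eta {g : Sph n → ℂ} (hg : Continuous g) (hi : Inv g) {δ : ℝ} (hδ : 0 < δ) :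
    ∃ η : ℝ, 0 < η ∧ η < 1 ∧ ∀ χ χ' : Sph n, δ ≤ ‖g χ' - g χ‖ → ‖⟪χ.1, χ'.1⟫_ℂ‖ ≤ η := by
  let K : Set (Sph n × Sph n) := {p | δ ≤ ‖g p.2 - g p.1‖}
  have hK : IsCompact K := (isClosed_le continuous_const (by fun_prop)).isCompact
  rcases K.eq_empty_or_nonempty with h | h
  · refine ⟨1 / 2, by norm_num, by norm_num, fun χ χ' hh => ?_⟩
    have : (χ, χ') ∈ K := hh
    rw [h] at this
    exact this.elim
  obtain ⟨p, hp, hm⟩ := hK.exists_isMaxOn h
    (f := fun p : Sph n × Sph n => ‖⟪p.1.1, p.2.1⟫_ℂ‖) (by fun_prop)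
  have hlt : ‖⟪p.1.1, p.2.1⟫_ℂ‖ < 1 := by
    have h1 := norm_inner_le_norm (𝕜 := ℂ) p.1.1 p.2.1
    refine lt_of_le_of_ne (by rwa [norm_sph, norm_sph, one_mul] at h1) fun he => ?_
    have hne : ∀ χ : Sph n, χ.1 ≠ 0 := fun χ => by
      rw [← norm_ne_zero_iff, norm_sph]; exact one_ne_zero
    obtain ⟨r, -, hr⟩ := (norm_inner_eq_norm_iff (𝕜 := ℂ) (hne p.1) (hne p.2)).1
      (by rw [he, norm_sph, norm_sph, one_mul])
    have hr1 : ‖r‖ = 1 := by
      have := norm_sph p.2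
      rwa [hr, norm_smul, norm_sph, mul_one] at this
    have : g p.2 = g p.1 := hi _ _ (by rw [hr, pj_smul_of_norm hr1])
    have hp' : δ ≤ ‖g p.2 - g p.1‖ := hp
    rw [this, sub_self, norm_zero] at hp'
    linarith
  exact ⟨max (1 / 2) ‖⟪p.1.1, p.2.1⟫_ℂ‖, lt_max_of_lt_left (by norm_num),
    max_lt (by norm_num) hlt, fun χ χ' hh => le_max_of_le_right (hm (a := (χ, χ')) hh)⟩

lemma dk_mul_pow {η : ℝ} (h0 : 0 < η) (h1 : η < 1) :
    Tendsto (fun k : ℕ => (dk k n : ℝ) * η ^ k) atTop (𝓝 0) := by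
  have hl : 0 < -Real.log η / 2 := by have := Real.log_neg h0 h1; linarith
  have ht := tendsto_pow_atTop_nhds_zero_of_lt_one (Real.exp_pos (Real.log η / 2)).le
    (Real.exp_lt_one_iff.2 (by linarith))
  refine squeeze_zero' (Eventually.of_forall fun k => by positivity) ?_ ht
  filter_upwards [dk_le_exp (n := n) hl] with k hk
  calc (dk k n : ℝ) * η ^ k ≤ Real.exp (-Real.log η / 2 * k) * Real.exp (Real.log η) ^ k := by
        rw [Real.exp_log h0]; gcongr
    _ = _ := by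
        rw [← Real.exp_nat_mul, ← Real.exp_nat_mul, ← Real.exp_add]; congr 1; ring

lemma kernel_le {g : Sph n → ℂ} (hg : Continuous g) (hi : Inv g) {ε : ℝ} (hε : 0 < ε) :
    ∀ᶠ k : ℕ in atTop, ∀ χ : Sph n,
      dk k n * ∫ χ', ‖g χ' - g χ‖ * ‖⟪χ.1, χ'.1⟫_ℂ‖ ^ k ∂(sm n) ≤ ε := by
  obtain ⟨C, hC⟩ := isCompact_univ.exists_bound_of_continuousOn hg.continuousOn
  have hδ : 0 < ε / 2 / 2 ^ Fintype.card n := by positivity
  obtain ⟨η, h0, h1, hη⟩ := exists_eta hg hi hδ
  have ht := (dk_mul_pow (n := n) h0 h1).const_mul (2 * C)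
  rw [mul_zero] at ht
  filter_upwards [ht.eventually (gt_mem_nhds (half_pos hε))] with k hk χ
  set δ := ε / 2 / 2 ^ Fintype.card n with hδe
  have hC0 : 0 ≤ C := (norm_nonneg _).trans (hC χ (Set.mem_univ _))
  have hp : ∀ χ' : Sph n, ‖g χ' - g χ‖ * ‖⟪χ.1, χ'.1⟫_ℂ‖ ^ k ≤
      δ * ‖⟪χ.1, χ'.1⟫_ℂ‖ ^ (2 * (k / 2)) + 2 * C * η ^ k := fun χ' => by
    have hi1 : ‖⟪χ.1, χ'.1⟫_ℂ‖ ≤ 1 := by
      have h1 := norm_inner_le_norm (𝕜 := ℂ) χ.1 χ'.1
      rwa [norm_sph, norm_sph, one_mul] at h1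
    rcases le_total δ ‖g χ' - g χ‖ with h | h
    · have h2 : ‖g χ' - g χ‖ ≤ 2 * C := by
        linarith [norm_sub_le (g χ') (g χ), hC χ (Set.mem_univ _), hC χ' (Set.mem_univ _)]
      have h3 := hη χ χ' h
      refine le_add_of_nonneg_of_le (by positivity) ?_
      gcongr
    · refine le_add_of_le_of_nonneg ?_ (by positivity)
      exact mul_le_mul h (pow_le_pow_of_le_one (norm_nonneg _) hi1 (Nat.mul_div_le k 2))
        (by positivity) hδ.le
  have h2 : ∫ χ', ‖g χ' - g χ‖ * ‖⟪χ.1, χ'.1⟫_ℂ‖ ^ k ∂(sm n) ≤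
      δ * ∫ χ', ‖⟪χ.1, χ'.1⟫_ℂ‖ ^ (2 * (k / 2)) ∂(sm n) + 2 * C * η ^ k := by
    refine (integral_mono (intg (by fun_prop)) (intg (by fun_prop)) hp).trans ?_
    rw [integral_add (intg (by fun_prop)) (intg (by fun_prop)), integral_const_mul]
    simp
  have h3 := kernel_int (k / 2) χ
  have h4 : (dk k n : ℝ) ≤ 2 ^ Fintype.card n * dk (k / 2) n := by exact_mod_cast dk_le_half k
  have h5 : 0 ≤ ∫ χ', ‖⟪χ.1, χ'.1⟫_ℂ‖ ^ (2 * (k / 2)) ∂(sm n) :=
    integral_nonneg fun _ => by positivity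
  set I := ∫ χ', ‖⟪χ.1, χ'.1⟫_ℂ‖ ^ (2 * (k / 2)) ∂(sm n)
  have h6 : dk k n * (δ * I) ≤ ε / 2 := by
    calc dk k n * (δ * I) ≤ 2 ^ Fintype.card n * dk (k / 2) n * (δ * I) := by gcongr
      _ = 2 ^ Fintype.card n * δ * (dk (k / 2) n * I) := by ring
      _ = ε / 2 := by rw [h3, hδe]; field_simp
  calc _ ≤ dk k n * (δ * I + 2 * C * η ^ k) := by gcongr
    _ = dk k n * (δ * I) + 2 * C * (dk k n * η ^ k) := by ring
    _ ≤ ε := by linarith

lemma inner_defect_le (k : ℕ) {g : Sph n → ℂ} (hg : Continuous g) (χ : Sph n)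
    (w : Q.Vec (Sym n k)) :
    ‖⟪cv k χ.1, ap (Tc k g) w⟫_ℂ - g χ * ⟪cv k χ.1, w⟫_ℂ‖ ≤
      dk k n * ∫ χ', ‖g χ' - g χ‖ * ‖⟪χ.1, χ'.1⟫_ℂ‖ ^ k * ‖⟪cv k χ'.1, w⟫_ℂ‖ ∂(sm n) := by
  have hc := cont_cv (n := n) k
  rw [inner_Tc k hg, inner_eq_int k (cv k χ.1) w, mul_left_comm, ← mul_sub, ← integral_const_mul,
    ← integral_sub (intg (by fun_prop)) (intg (by fun_prop)), norm_mul, Complex.norm_natCast]
  gcongr
  refine (norm_integral_le_integral_norm _).trans (le_of_eq ?_)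
  refine integral_congr_ae (Eventually.of_forall fun χ' => ?_)
  simp only [← sub_mul, norm_mul, inner_cv, norm_pow, mul_assoc]

lemma norm_mul_sub_le (k : ℕ) {f g : Sph n → ℂ} (hf : Continuous f) (hg : Continuous g) {C ε : ℝ}
    (hC : ∀ χ, ‖f χ‖ ≤ C) (hε : 0 ≤ ε) (h : ∀ χ : Sph n,
      dk k n * ∫ χ', ‖g χ' - g χ‖ * ‖⟪χ.1, χ'.1⟫_ℂ‖ ^ k ∂(sm n) ≤ ε) :
    ‖Tc k f * Tc k g - Tc k fun χ => f χ * g χ‖ ≤ C * ε := by
  have hc := cont_cv (n := n) k
  have hd : (0 : ℝ) < dk k n := by exact_mod_cast dk_pos k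
  have hC0 : 0 ≤ C := by
    obtain ⟨χ⟩ : Nonempty (Sph n) := nonempty_of_isProbabilityMeasure (sm n)
    exact (norm_nonneg _).trans (hC χ)
  refine norm_le_of_inner (by positivity) fun u w hu hw => ?_
  have c1 : Continuous (Function.uncurry fun χ χ' : Sph n =>
      ‖g χ' - g χ‖ * ‖⟪χ.1, χ'.1⟫_ℂ‖ ^ k) := by
    change Continuous fun p : Sph n × Sph n => ‖g p.2 - g p.1‖ * ‖⟪p.1.1, p.2.1⟫_ℂ‖ ^ k
    fun_prop
  have hs := schurT (μ := sm n) c1 (fun _ _ => by positivity)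
    (fun χ χ' => by rw [norm_sub_rev, norm_inner_symm]) (e := ε / dk k n)
    (fun χ => by rw [le_div_iff₀' hd]; exact h χ)
    (a := fun χ => ‖⟪cv k χ.1, u⟫_ℂ‖) (b := fun χ => ‖⟪cv k χ.1, w⟫_ℂ‖) (by fun_prop)
    (by fun_prop)
  have p1 := parseval k u
  have p2 := parseval k w
  rw [hu, one_pow] at p1
  rw [hw, one_pow] at p2
  have c2 : Continuous (Function.uncurry fun χ χ' : Sph n =>
      ‖g χ' - g χ‖ * ‖⟪χ.1, χ'.1⟫_ℂ‖ ^ k * ‖⟪cv k χ'.1, w⟫_ℂ‖) :=
    c1.mul ((by fun_prop : Continuous fun χ : Sph n => ‖⟪cv k χ.1, w⟫_ℂ‖).comp continuous_snd)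
  obtain ⟨D, hD⟩ := isCompact_univ.exists_bound_of_continuousOn
    (f := fun χ : Sph n => ‖⟪cv k χ.1, u⟫_ℂ‖) (Continuous.continuousOn (by fun_prop))
  rw [ap_sub, inner_sub_right, ap_mul, inner_Tc k hf,
    inner_Tc k (f := fun χ => f χ * g χ) (hf.mul hg), ← mul_sub,
    ← integral_sub (intg (by fun_prop)) (intg (by fun_prop)), norm_mul, Complex.norm_natCast]
  calc _ ≤ dk k n * ∫ χ, C * dk k n * (‖⟪cv k χ.1, u⟫_ℂ‖ * ∫ χ',
        ‖g χ' - g χ‖ * ‖⟪χ.1, χ'.1⟫_ℂ‖ ^ k * ‖⟪cv k χ'.1, w⟫_ℂ‖ ∂(sm n)) ∂(sm n) := by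
        gcongr
        refine norm_integral_le_of_norm_le (Integrable.const_mul ?_ _)
          (Eventually.of_forall fun χ => ?_)
        · exact (cont_int c2).bdd_mul (by fun_prop : Continuous fun χ : Sph n =>
            ‖⟪cv k χ.1, u⟫_ℂ‖).aestronglyMeasurable
            (Eventually.of_forall fun x => hD x (Set.mem_univ x))
        · have := inner_defect_le k hg χ w
          calc _ = ‖f χ‖ * (‖⟪cv k χ.1, u⟫_ℂ‖ *
                ‖⟪cv k χ.1, ap (Tc k g) w⟫_ℂ - g χ * ⟪cv k χ.1, w⟫_ℂ‖) := by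
                rw [norm_inner_symm (cv k χ.1) u, ← norm_mul, ← norm_mul]; congr 1; ring
            _ ≤ C * (‖⟪cv k χ.1, u⟫_ℂ‖ * _) :=
                mul_le_mul (hC χ) (mul_le_mul_of_nonneg_left this (norm_nonneg _))
                  (by positivity) hC0
            _ = _ := by ring
    _ ≤ dk k n * (C * dk k n * (ε / dk k n * ((∫ χ, ‖⟪cv k χ.1, u⟫_ℂ‖ ^ 2 ∂(sm n) +
        ∫ χ, ‖⟪cv k χ.1, w⟫_ℂ‖ ^ 2 ∂(sm n)) / 2))) := by
        rw [integral_const_mul]; gcongr
    _ = C * ε * ((dk k n * ∫ χ, ‖⟪cv k χ.1, u⟫_ℂ‖ ^ 2 ∂(sm n) +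
        dk k n * ∫ χ, ‖⟪cv k χ.1, w⟫_ℂ‖ ^ 2 ∂(sm n)) / 2) := by field_simp
    _ = _ := by rw [p1, p2]; ring

lemma exists_bd {g : Sph n → ℂ} (hg : Continuous g) : ∃ C : ℝ, 0 < C ∧ ∀ χ, ‖g χ‖ ≤ C := by
  obtain ⟨C, hC⟩ := isCompact_univ.exists_bound_of_continuousOn hg.continuousOn
  exact ⟨max C 1, lt_max_of_lt_right one_pos, fun χ => le_max_of_le_left (hC χ (Set.mem_univ _))⟩

lemma tendsto_of_le {a : ℕ → ℝ} (h0 : ∀ k, 0 ≤ a k)
    (h : ∀ δ : ℝ, 0 < δ → ∀ᶠ k in atTop, a k ≤ δ) : Tendsto a atTop (𝓝 0) := by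
  refine tendsto_order.2 ⟨fun b hb => Eventually.of_forall fun k => hb.trans_le (h0 k),
    fun b hb => ?_⟩
  filter_upwards [h (b / 2) (half_pos hb)] with k hk
  linarith

end CB

open CB

variable {n : Type} [Fintype n] [DecidableEq n] [Nonempty n] {k : ℕ}

/-- multiplicativity -/
theorem Tc_mul {f g : Sph n → ℂ} (hf : Continuous f) (hg : Continuous g) (hi : Inv g) :
    Tendsto (fun k => ‖Tc k f * Tc k g - Tc k fun χ => f χ * g χ‖) atTop (𝓝 0) := by
  obtain ⟨C, hC0, hC⟩ := exists_bd hf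
  refine tendsto_of_le (fun _ => norm_nonneg _) fun δ hδ => ?_
  filter_upwards [kernel_le hg hi (div_pos hδ hC0)] with k hk
  have := norm_mul_sub_le k hf hg hC (div_pos hδ hC0).le hk
  rwa [mul_div_cancel₀ _ hC0.ne'] at this

variable {G G' : ∀ k : ℕ, Ms k n} {g g' : Sph n → ℂ}


lemma HasSym.add (h : HasSym G g) (h' : HasSym G' g') :
    HasSym (fun k => G k + G' k) fun χ => g χ + g' χ := by
  refine ⟨h.cont.add h'.cont, fun χ χ' e => by rw [h.inv _ _ e, h'.inv _ _ e], ?_⟩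
  refine squeeze_zero (fun _ => norm_nonneg _) (fun k => ?_) (by simpa using h.lim.add h'.lim)
  rw [Tc_add k h.cont h'.cont, add_sub_add_comm]
  exact norm_add_le _ _

lemma HasSym.smul (h : HasSym G g) (c : ℂ) : HasSym (fun k => c • G k) fun χ => c * g χ := by
  refine ⟨continuous_const.mul h.cont, fun χ χ' e => by rw [h.inv _ _ e], ?_⟩
  have := h.lim.const_mul ‖c‖
  rw [mul_zero] at this
  refine this.congr fun k => ?_
  rw [Tc_smul, ← smul_sub, norm_smul]

lemma HasSym.mul (h : HasSym G g) (h' : HasSym G' g') :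
    HasSym (fun k => G k * G' k) fun χ => g χ * g' χ := by
  refine ⟨h.cont.mul h'.cont, fun χ χ' e => by rw [h.inv _ _ e, h'.inv _ _ e], ?_⟩
  obtain ⟨C, -, hC⟩ := exists_bd h.cont
  obtain ⟨C', -, hC'⟩ := exists_bd h'.cont
  have ht := ((h.lim.mul (h'.lim.add_const C')).add (h'.lim.const_mul C)).add
    (Tc_mul h.cont h'.cont h'.inv)
  refine squeeze_zero (fun _ => norm_nonneg _) (fun k => ?_) (by simpa using ht)
  have e : G k * G' k - Tc k (fun χ => g χ * g' χ) = (G k - Tc k g) * G' k +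
      Tc k g * (G' k - Tc k g') + (Tc k g * Tc k g' - Tc k fun χ => g χ * g' χ) := by
    noncomm_ring
  have h1 : ‖G' k‖ ≤ ‖G' k - Tc k g'‖ + C' :=
    (norm_le_norm_sub_add _ (Tc k g')).trans (by gcongr; exact norm_Tc_le k h'.cont hC')
  have h2 := norm_Tc_le k h.cont hC
  rw [e]
  refine (norm_add₃_le).trans ?_
  gcongr
  · exact (norm_mul_le _ _).trans (by gcongr)
  · exact (norm_mul_le _ _).trans (by gcongr)

lemma CB.hasSym_const (c : ℂ) : HasSym (fun k => c • (1 : Ms k n)) fun _ => c :=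
  ⟨continuous_const, fun _ _ _ => rfl, by simp [Tc_const]⟩

lemma HasSym.congr (h : HasSym G g) (h1 : ∀ᶠ k in atTop, G k = G' k) (h2 : ∀ χ, g χ = g' χ) :
    HasSym G' g' := by
  obtain rfl : g = g' := funext h2
  exact ⟨h.cont, h.inv, h.lim.congr' (h1.mono fun k hk => by rw [hk])⟩

lemma HasSym.sum {α : Type*} (s : Finset α) {G : α → ∀ k : ℕ, Ms k n} {g : α → Sph n → ℂ}
    (h : ∀ a ∈ s, HasSym (G a) (g a)) :
    HasSym (fun k => ∑ a ∈ s, G a k) fun χ => ∑ a ∈ s, g a χ := by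
  classical
  induction s using Finset.induction_on with
  | empty => simpa using hasSym_const (n := n) 0
  | insert a s ha ih =>
    simp only [Finset.sum_insert ha]
    exact (h a (mem_insert_self _ _)).add (ih fun b hb => h b (mem_insert_of_mem hb))

lemma CB.Tr_neg (k : ℕ) (g : Sph n → ℝ) : Tr k (fun χ => -g χ) = -Tr k g := by
  have := Tc_smul k (-1) fun χ => (g χ : ℂ)
  simpa [Tr] using this

lemma CB.Tr_lin (k : ℕ) {g : Sph n → ℝ} (hg : Continuous g) (a b : ℝ) :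
    Tr k (fun χ => a * g χ + b) = a • Tr k g + b • (1 : Ms k n) := by
  have h1 := Tc_add k (f := fun χ => (a : ℂ) * (g χ : ℂ)) (g := fun _ => (b : ℂ)) (by fun_prop)
    continuous_const
  rw [Tc_smul, Tc_const] at h1
  simp only [Tr, Complex.ofReal_add, Complex.ofReal_mul]
  exact h1

/-- two-sided bounds give the symbol -/
lemma hasSym_of_le {g : Sph n → ℝ} (hg : Continuous g) (hi : Inv fun χ => (g χ : ℂ))
    (h1 : ∀ δ : ℝ, 0 < δ → ∀ᶠ k in atTop, G k ≤ Tr k g + δ • (1 : Ms k n))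
    (h2 : ∀ δ : ℝ, 0 < δ → ∀ᶠ k in atTop, -G k ≤ Tr k (fun χ => -g χ) + δ • (1 : Ms k n)) :
    HasSym G fun χ => (g χ : ℂ) := by
  refine ⟨by fun_prop, hi, tendsto_of_le (fun _ => norm_nonneg _) fun δ hδ => ?_⟩
  filter_upwards [h1 δ hδ, h2 δ hδ] with k e1 e2
  rw [Tr_neg] at e2
  refine norm_le_of_two hδ.le (sub_le_iff_le_add'.2 e1) ?_
  rw [neg_sub, sub_eq_add_neg, ← le_sub_iff_add_le', sub_eq_neg_add]
  exact e2

lemma CB.inv_inner (A : Matrix n n ℂ) : Inv fun χ : Sph n => ⟪χ.1, ap A χ.1⟫_ℂ := fun χ χ' e => by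
  simp only [← trace_mul_kb]
  exact congrArg (fun P => trace (A * P)) e

lemma CB.dG_le {A : Matrix n n ℂ} (hA : A.IsHermitian) {δ : ℝ} (hδ : 0 < δ) :
    ∀ᶠ k : ℕ in atTop, (k : ℂ)⁻¹ • cmp (dG k A) ≤
      Tr k (fun χ : Sph n => qf χ.1 A) + δ • (1 : Ms k n) := by
  set C := ‖A‖ ^ 2 * Real.exp ‖A‖ with hC
  have hC0 : 0 ≤ C := by positivity
  set t := min 1 (δ / 2 / (C + 1)) with ht
  have t0 : 0 < t := lt_min one_pos (by positivity)
  have t1 : t ≤ 1 := min_le_left _ _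
  have t2 : t * C ≤ δ / 2 := by
    have := (le_div_iff₀ (by positivity : 0 < C + 1)).1 (min_le_right 1 (δ / 2 / (C + 1)))
    nlinarith
  have hq : Continuous fun χ : Sph n => qf χ.1 A := by unfold qf; fun_prop
  filter_upwards [dk_le_exp (n := n) (δ := δ / 2 * t) (by positivity), eventually_gt_atTop 0]
    with k hk k0
  have hB := herm_rsmul hA t
  have hP := tp_posDef k (ee_posDef (t • A))
  have hb := bl (cmp_posDef hP) (g := fun χ => k * t * qf χ.1 A + k * (t ^ 2 * C)) (by fun_prop)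
    fun χ => by
      rw [qf_cv_cmp, qf_tv_tp k (ee_posDef _).1, Real.log_pow, mul_assoc, ← mul_add]
      refine mul_le_mul_of_nonneg_left ?_ (Nat.cast_nonneg k)
      have h1 := qf_ee_le hB (norm_sph χ)
      have h2 := (Real.exp_pos _).trans_le (exp_qf_le hB (norm_sph χ))
      have h3 : ‖t • A‖ ^ 2 * Real.exp ‖t • A‖ ≤ t ^ 2 * C := by
        rw [norm_smul, Real.norm_eq_abs, abs_of_pos t0, hC, mul_pow, mul_assoc]
        gcongr
        exact mul_le_of_le_one_left (norm_nonneg _) t1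
      have h4 := Real.log_le_sub_one_of_pos h2
      rw [qf_rs] at h1
      linarith
  rw [lg, fr, ← cmp_fc (sy_tp _ _) hP.1, Tr_lin k hq] at hb
  change cmp (lg _) ≤ _ at hb
  rw [lg_tp k (ee_posDef _), lg_ee hB, dG_rsmul, cmp_rsmul, add_assoc, ← add_smul] at hb
  have k0' : (0 : ℝ) < k := by exact_mod_cast k0
  have hl : Real.log (dk k n) ≤ δ / 2 * t * k :=
    (Real.log_le_iff_le_exp (by exact_mod_cast dk_pos k)).2 hk
  have h5 := smul_le_smul_of_nonneg_left hb (show (0 : ℝ) ≤ (k * t)⁻¹ by positivity)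
  rw [smul_add, smul_smul, smul_smul, smul_smul, inv_mul_cancel₀ (by positivity), one_smul,
    show (k * t : ℝ)⁻¹ * t = (k : ℝ)⁻¹ by field_simp] at h5
  have e : (k : ℂ)⁻¹ • cmp (dG k A) = (k : ℝ)⁻¹ • cmp (dG k A) := by
    rw [← Complex.coe_smul]; simp
  rw [e]
  refine h5.trans ?_
  gcongr
  rw [inv_mul_le_iff₀ (by positivity)]
  nlinarith [mul_le_mul_of_nonneg_left t2 (mul_pos k0' t0).le]

lemma CB.hasSym_dG_herm {A : Matrix n n ℂ} (hA : A.IsHermitian) :
    HasSym (fun k => (k : ℂ)⁻¹ • cmp (dG k A)) fun χ => ⟪χ.1, ap A χ.1⟫_ℂ := by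
  have e : ∀ χ : Sph n, (qf χ.1 A : ℂ) = ⟪χ.1, ap A χ.1⟫_ℂ := fun χ =>
    Complex.ext rfl (by rw [im_inner_ap hA]; rfl)
  refine (hasSym_of_le (g := fun χ : Sph n => qf χ.1 A) (by unfold qf; fun_prop)
    (by simpa only [e] using inv_inner A) (fun δ hδ => dG_le hA hδ) fun δ hδ => ?_).congr
    (Eventually.of_forall fun _ => rfl) e
  filter_upwards [dG_le hA.neg hδ] with k hk
  have e1 : dG k (-A) = -dG k A := by simpa using dG_smul k (-1) A
  simpa only [e1, cmp_neg, smul_neg, qf_neg] using hk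

theorem hasSym_dG (A : Matrix n n ℂ) :
    HasSym (fun k => (k : ℂ)⁻¹ • cmp (dG k A)) fun χ => ⟪χ.1, ap A χ.1⟫_ℂ := by
  have h1 : (A + Aᴴ).IsHermitian := isHermitian_add_transpose_self A
  have h2 : (Complex.I • (A - Aᴴ)).IsHermitian := by
    rw [IsHermitian, conjTranspose_smul, conjTranspose_sub, conjTranspose_conjTranspose,
      Complex.star_def, Complex.conj_I, neg_smul, ← smul_neg, neg_sub]
  have e : A = (1 / 2 : ℂ) • (A + Aᴴ) + (-Complex.I / 2) • (Complex.I • (A - Aᴴ)) := by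
    rw [smul_smul, show -Complex.I / 2 * Complex.I = 1 / 2 by
      rw [div_mul_eq_mul_div, neg_mul, Complex.I_mul_I, neg_neg], ← smul_add]
    rw [add_add_sub_cancel, ← two_smul ℂ A, smul_smul]
    norm_num
  refine (((hasSym_dG_herm h1).smul (1 / 2)).add
    ((hasSym_dG_herm h2).smul (-Complex.I / 2))).congr (Eventually.of_forall fun k => ?_)
    fun χ => ?_
  · conv_rhs => rw [e, dG_add, dG_smul k (1 / 2), dG_smul k (-Complex.I / 2), cmp_add,
      cmp_smul (1 / 2), cmp_smul (-Complex.I / 2), smul_add, smul_comm, smul_comm (k : ℂ)⁻¹]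
  · conv_rhs => rw [e, ap_add, ap_smul (1 / 2), ap_smul (-Complex.I / 2), inner_add_right,
      inner_smul_right, inner_smul_right]

end Crest.Agent.N336.R
end

-- ▼ part N336/R/Coh
section
end

-- ▼ part N336/R/Met1
section

/-! # Row 336, replica package: the metrics, first file (basic facts, invariance) -/

set_option autoImplicit false
set_option linter.unusedSectionVars false

open Matrix Finset MeasureTheory Filter
open scoped ComplexOrder MatrixOrder Matrix.Norms.L2Operator InnerProductSpace Topology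

namespace Crest.Agent.N336.R

open Crest.Agent.N336.Q Crest.Agent.N336.Eng Crest.Agent.N336.C

namespace Mt
variable {n : Type} [Fintype n] [DecidableEq n]

/-- the vector of entries -/
def vc (L : Matrix n n ℂ) : Q.Vec (n × n) := WithLp.toLp 2 fun p => L p.1 p.2

/-- the matrix of a vector of entries -/
def mt (G : Q.Vec (n × n)) : Matrix n n ℂ := Matrix.of fun i j => G (i, j)

lemma vc_mt (G : Q.Vec (n × n)) : vc (mt G) = G := rfl
lemma mt_vc (L : Matrix n n ℂ) : mt (vc L) = L := rfl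
lemma hm_eq (G : Q.Vec (n × n)) : hm G = (1 / 2 : ℂ) • (mt G + (mt G)ᴴ) := rfl

lemma norm_vc (L : Matrix n n ℂ) : ‖vc L‖ = hs L := by
  rw [EuclideanSpace.norm_eq, hs, Fintype.sum_prod_type, Finset.sum_comm]
  congr 1
  simp only [trace, Matrix.diag_apply, Matrix.mul_apply, conjTranspose_apply, Complex.re_sum, vc]
  refine Finset.sum_congr rfl fun j _ => Finset.sum_congr rfl fun i _ => ?_
  rw [Complex.star_def, Complex.conj_mul']
  norm_cast

lemma hs_conjTranspose (L : Matrix n n ℂ) : hs Lᴴ = hs L := by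
  rw [hs, hs, conjTranspose_conjTranspose, trace_mul_comm]

lemma hs_conj {U : Matrix n n ℂ} (h : Uᴴ * U = 1) (L : Matrix n n ℂ) :
    hs (U * L * Uᴴ) = hs L := by
  have e : (U * L * Uᴴ)ᴴ * (U * L * Uᴴ) = U * (Lᴴ * (Uᴴ * U) * L) * Uᴴ := by
    simp only [conjTranspose_mul, conjTranspose_conjTranspose, Matrix.mul_assoc]
  rw [hs, hs, e, h, Matrix.mul_one, trace_mul_cycle, h, Matrix.one_mul]

lemma hm_isHermitian (G : Q.Vec (n × n)) : (hm G).IsHermitian := by
  rw [hm_eq, IsHermitian, conjTranspose_smul, conjTranspose_add, conjTranspose_conjTranspose,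
    add_comm]
  simp

lemma hm_vc {L : Matrix n n ℂ} (h : L.IsHermitian) : hm (vc L) = L := by
  rw [hm_eq, mt_vc, h.eq, ← two_smul ℂ L, smul_smul]
  simp

lemma hs_hm_le (G : Q.Vec (n × n)) : hs (hm G) ≤ ‖G‖ := by
  have e : hm G = (1 / 2 : ℝ) • (mt G + (mt G)ᴴ) := by
    rw [hm_eq, ← Complex.coe_smul]; norm_num
  have h := hs_add_le (mt G) (mt G)ᴴ
  rw [hs_conjTranspose, ← norm_vc (mt G), vc_mt] at h
  rw [e, hs_smul, abs_of_pos one_half_pos]
  linarith

lemma continuous_hm : Continuous (hm : Q.Vec (n × n) → Matrix n n ℂ) := by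
  have h : Continuous (mt : Q.Vec (n × n) → Matrix n n ℂ) :=
    continuous_matrix fun i j => by simp only [mt, of_apply]; fun_prop
  exact (h.add h.matrix_conjTranspose).const_smul (1 / 2 : ℂ)

/-- conjugation of the entries -/
noncomputable def cj (U : Matrix n n ℂ) : Q.Vec (n × n) →ₗ[ℝ] Q.Vec (n × n) where
  toFun G := vc (U * mt G * Uᴴ)
  map_add' G G' := by
    rw [show mt (G + G') = mt G + mt G' from rfl, Matrix.mul_add, Matrix.add_mul]; rfl
  map_smul' c G := by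
    rw [show mt (c • G) = c • mt G from rfl, Matrix.mul_smul, Matrix.smul_mul]; rfl

lemma norm_cj {U : Matrix n n ℂ} (h : Uᴴ * U = 1) (G : Q.Vec (n × n)) : ‖cj U G‖ = ‖G‖ := by
  rw [show cj U G = vc (U * mt G * Uᴴ) from rfl, norm_vc, hs_conj h, ← norm_vc, vc_mt]

lemma hm_cj (U : Matrix n n ℂ) (G : Q.Vec (n × n)) : hm (cj U G) = U * hm G * Uᴴ := by
  rw [show cj U G = vc (U * mt G * Uᴴ) from rfl, hm_eq, hm_eq, mt_vc]
  simp only [conjTranspose_mul, conjTranspose_conjTranspose, Matrix.mul_smul, Matrix.smul_mul,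
    Matrix.mul_add, Matrix.add_mul, Matrix.mul_assoc]

/-- invariance of `nu` under linear isometries -/
lemma integral_nu_comp {F : Type*} [NormedAddCommGroup F] [NormedSpace ℝ F]
    (T : Q.Vec (n × n) →ₗ[ℝ] Q.Vec (n × n)) (hT : ∀ G, ‖T G‖ = ‖G‖) (M : ℝ)
    (f : Q.Vec (n × n) → F) : ∫ G, f (T G) ∂nu n M = ∫ G, f G ∂nu n M := by
  let e : Q.Vec (n × n) ≃ₗᵢ[ℝ] Q.Vec (n × n) :=
    LinearIsometry.toLinearIsometryEquiv ⟨T, hT⟩ rfl
  have he : ∀ G, e G = T G := fun _ => rfl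
  have hb : ∀ r, e ⁻¹' Metric.closedBall 0 r = Metric.closedBall 0 r := fun r => by
    ext G; simp
  have h := Measure.addHaar_preimage_continuousLinearEquiv
    (Measure.addHaar : Measure (Q.Vec (n × n))) e.toContinuousLinearEquiv
  have h1 := h (Metric.closedBall 0 1)
  rw [show (e.toContinuousLinearEquiv : _ → _) = e from rfl] at h h1
  rw [hb, eq_comm, ← mul_one (Measure.addHaar (Metric.closedBall 0 1)), mul_one, mul_comm] at h1
  rw [(ENNReal.mul_eq_left (Metric.measure_closedBall_pos _ _ one_pos).ne'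
    measure_closedBall_lt_top.ne).1 h1] at h
  have hm : MeasurePreserving e Measure.addHaar Measure.addHaar :=
    ⟨e.continuous.measurable, Measure.ext fun s hs => by
      rw [Measure.map_apply e.continuous.measurable hs, h, one_mul]⟩
  have h2 := hm.restrict_preimage (Metric.isClosed_closedBall (x := 0) (ε := M)).measurableSet
  rw [hb] at h2
  exact h2.integral_comp e.toHomeomorph.measurableEmbedding f

lemma rsmul_mono {A B : Matrix n n ℂ} {c : ℝ} (hc : 0 ≤ c) (h : A ≤ B) : c • A ≤ c • B := by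
  rw [Matrix.le_iff, ← smul_sub]; exact (Matrix.le_iff.1 h).smul hc

lemma rsmul_le_rsmul {A : Matrix n n ℂ} {c c' : ℝ} (hA : A.PosSemidef) (h : c ≤ c') :
    c • A ≤ c' • A := by
  rw [Matrix.le_iff, ← sub_smul]; exact hA.smul (sub_nonneg.2 h)

lemma isHermitian_rsmul {A : Matrix n n ℂ} (h : A.IsHermitian) (c : ℝ) : (c • A).IsHermitian := by
  rw [IsHermitian, conjTranspose_smul, h.eq, star_trivial]

lemma abs_re_trace_le {A : Matrix n n ℂ} (h : A.IsHermitian) :
    |(trace A).re| ≤ Fintype.card n * hs A := by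
  rw [re_trace_eq h]
  refine (Finset.abs_sum_le_sum_abs _ _).trans ((Finset.sum_le_card_nsmul _ _ (hs A) fun i _ =>
    (abs_ev_le h i).trans (norm_le_hs A)).trans_eq ?_)
  rw [nsmul_eq_mul, Finset.card_univ]

lemma integral_conj {X : Type*} [MeasurableSpace X] {μ : Measure X} {F : X → Matrix n n ℂ}
    (hF : Integrable F μ) (U V : Matrix n n ℂ) :
    ∫ x, U * F x * V ∂μ = U * (∫ x, F x ∂μ) * V :=
  (ContinuousLinearMap.mulLeftRight ℂ (Matrix n n ℂ) U V).integral_comp_comm hF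

lemma commute_integral {X : Type*} [MeasurableSpace X] {μ : Measure X} {F : X → Matrix n n ℂ}
    {G : Matrix n n ℂ} (h : ∀ x, Commute G (F x)) : Commute G (∫ x, F x ∂μ) := by
  by_cases hF : Integrable F μ
  · have h1 := integral_conj hF G 1
    have h2 := integral_conj hF 1 G
    simp only [Matrix.mul_one, Matrix.one_mul] at h1 h2
    rw [Commute, SemiconjBy, ← h1, ← h2]
    exact congrArg _ (funext fun x => h x)
  · rw [integral_undef hF]; exact Commute.zero_right G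

end Mt

variable {ι : Type} [Fintype ι] [DecidableEq ι] {d : ι → Type} [∀ x, Fintype (d x)]
  [∀ x, DecidableEq (d x)] [∀ x, Nonempty (d x)]

variable {k : ℕ} {A A' Z : Finset ι} {s ε M : ℝ}

instance (n : Type) [Fintype n] (M : ℝ) : IsFiniteMeasure (nu n M) :=
  isFiniteMeasure_restrict.2 measure_closedBall_lt_top.ne
lemma Mt.continuous_E (A : Finset ι) : Continuous (E A : Q.Op d → Q.Op d) :=
  continuous_matrix fun σ τ => by
    simp only [E_apply]
    split_ifs <;> fun_prop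
lemma continuous_LQ (A : Finset ι) : Continuous (LQ A : Q.Vec (Cfg d × Cfg d) → Q.Op d) :=
  (Mt.continuous_E A).comp Mt.continuous_hm
lemma LQ_isHermitian (A : Finset ι) (G : Q.Vec (Cfg d × Cfg d)) : (LQ A G).IsHermitian :=
  E_isHermitian A (Mt.hm_isHermitian G)
lemma supp_LQ (A : Finset ι) (G : Q.Vec (Cfg d × Cfg d)) : Supp A (LQ A G) := supp_E A _
lemma adm_LQ (A : Finset ι) {G : Q.Vec (Cfg d × Cfg d)} (h : ‖G‖ ≤ M) : Adm A M (LQ A G) :=
  ⟨LQ_isHermitian A G, supp_LQ A G, (hs_E_le A _).trans ((Mt.hs_hm_le G).trans h)⟩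
lemma ae_adm (A : Finset ι) (M : ℝ) : ∀ᵐ G ∂(nu (Cfg d) M), Adm A M (LQ A G) := by
  filter_upwards [ae_restrict_mem (Metric.isClosed_closedBall (x := 0) (ε := M)).measurableSet]
    with G hG using adm_LQ A (mem_closedBall_zero_iff.1 hG)
lemma Mt.LQ_vc {L : Q.Op d} (hL : L.IsHermitian) (hs : Supp A L) : LQ A (Mt.vc L) = L := by
  rw [LQ, Mt.hm_vc hL, hs.E_eq]
lemma wt_pos (k : ℕ) (A : Finset ι) (s ε : ℝ) (L : Q.Op d) : 0 < wt k A s ε L := Real.exp_pos _
lemma Mt.continuous_ee_LQ (A : Finset ι) :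
    Continuous fun G : Q.Vec (Cfg d × Cfg d) => ee (LQ A G) :=
  continuous_ee (continuous_LQ A) (LQ_isHermitian A)
lemma Mt.continuous_psi (A : Finset ι) (s ε : ℝ) :
    Continuous fun G : Q.Vec (Cfg d × Cfg d) => psi A s ε (LQ A G) :=
  ((continuous_const.mul (Complex.continuous_re.comp (continuous_ee
    ((continuous_LQ A).const_smul s⁻¹) fun G =>
      Mt.isHermitian_rsmul (LQ_isHermitian A G) _).matrix_trace)).sub
    (continuous_const.mul (Complex.continuous_re.comp (continuous_LQ A).matrix_trace))).div_const _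
lemma continuous_wt (k : ℕ) (A : Finset ι) (s ε : ℝ) :
    Continuous fun G : Q.Vec (Cfg d × Cfg d) => wt k A s ε (LQ A G) :=
  Real.continuous_exp.comp (continuous_const.mul (continuous_const.sub (Mt.continuous_psi A s ε)))
lemma integrable_Wf (k : ℕ) (A : Finset ι) (s ε M : ℝ) {f : Q.Op d → ℂ}
    (hf : Continuous fun G : Q.Vec (Cfg d × Cfg d) => f (LQ A G)) :
    Integrable (fun G => (f (LQ A G) * wt k A s ε (LQ A G)) • tp k (ee (LQ A G)))
      (nu (Cfg d) M) :=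
  ((hf.mul (Complex.continuous_ofReal.comp (continuous_wt k A s ε))).smul
    ((continuous_tp k).comp (Mt.continuous_ee_LQ A))).continuousOn.integrableOn_compact
    (isCompact_closedBall 0 M)
lemma Mt.Wm_eq (k : ℕ) (A : Finset ι) (s ε M : ℝ) : Wm d k A s ε M =
    ∫ G, wt k A s ε (LQ A G) • tp k (ee (LQ A G)) ∂(nu (Cfg d) M) := by
  simp only [Wm, Wf, one_mul, Complex.coe_smul]
lemma Mt.integrable_Wm (k : ℕ) (A : Finset ι) (s ε M : ℝ) :
    Integrable (fun G => wt k A s ε (LQ A G) • tp k (ee (LQ A G))) (nu (Cfg d) M) := by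
  simpa only [one_mul, Complex.coe_smul] using
    integrable_Wf (d := d) k A s ε M (f := fun _ => 1) continuous_const
lemma sy_Wf (k : ℕ) (A : Finset ι) (s ε M : ℝ) (f : Q.Op d → ℂ) : Sy (Wf k A s ε M f) :=
  Sy.integral fun _ => (sy_tp k _).smul _
lemma sy_Wm (k : ℕ) (A : Finset ι) (s ε M : ℝ) : Sy (Wm d k A s ε M) := sy_Wf k A s ε M _
/-- anything commuting with the tensor powers commutes with the integrals -/
lemma commute_Wf {G : Mk k (Cfg d)} (h : ∀ L : Q.Op d, L.IsHermitian → Supp A L →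
    Commute G (tp k (ee L))) (s ε M : ℝ) (f : Q.Op d → ℂ) : Commute G (Wf k A s ε M f) :=
  Mt.commute_integral fun G => (h _ (LQ_isHermitian A G) (supp_LQ A G)).smul_right _
lemma Mt.wt_conj {U L : Q.Op d} (h1 : Uᴴ * U = 1) (h2 : U * Uᴴ = 1) (hL : L.IsHermitian) :
    wt k A s ε (U * L * Uᴴ) = wt k A s ε L := by
  have e : ∀ X : Q.Op d, trace (U * X * Uᴴ) = trace X := fun X => by
    rw [trace_mul_cycle, h1, Matrix.one_mul]
  rw [wt, wt, psi, psi, e, ← Matrix.smul_mul, ← Matrix.mul_smul,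
    show ee (U * s⁻¹ • L * Uᴴ) = _ from fc_conj _ (Mt.isHermitian_rsmul hL _) h1 h2, e]
lemma Mt.Wm_commute_unitary {U : Q.Op d} (hs : Supp A U) (h1 : Uᴴ * U = 1) (h2 : U * Uᴴ = 1) (k : ℕ)
    (s ε M : ℝ) : Commute (Wm d k A s ε M) (tp k U) := by
  have e : Wm d k A s ε M = tp k U * Wm d k A s ε M * tp k Uᴴ := by
    rw [Mt.Wm_eq, ← Mt.integral_conj (Mt.integrable_Wm k A s ε M),
      ← Mt.integral_nu_comp (Mt.cj U) (Mt.norm_cj h1)]
    congr 1; funext G
    have e1 : LQ A (Mt.cj U G) = U * LQ A G * Uᴴ := by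
      rw [LQ, Mt.hm_cj, hs.conjTranspose.E_mul', hs.E_mul, LQ]
    rw [e1, Mt.wt_conj h1 h2 (LQ_isHermitian A G),
      show ee (U * LQ A G * Uᴴ) = _ from fc_conj _ (LQ_isHermitian A G) h1 h2, tp_mul, tp_mul,
      Matrix.mul_smul, Matrix.smul_mul]
  rw [Commute, SemiconjBy]
  conv_lhs => rw [e, Matrix.mul_assoc, ← tp_mul, h1, tp_one, Matrix.mul_one]
/-- unitary invariance -/
theorem Wm_commute_dG {h : Q.Op d} (hs : Supp Z h) (hZ : Z ⊆ A ∨ Disjoint Z A) (k : ℕ)
    (s ε M : ℝ) : Commute (Wm d k A s ε M) (dG k h) := by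
  rcases hZ with hZ | hZ
  · have H : ∀ g : Q.Op d, Supp A g → g.IsHermitian → Commute (Wm d k A s ε M) (dG k g) :=
      fun g hg hh => commute_dG_of_unitary hh fun t => by
        have e : ∀ x : ℝ, star (Complex.exp (t * Complex.I * x)) *
            Complex.exp (t * Complex.I * x) = 1 := fun x => by
          rw [Complex.star_def, ← Complex.exp_conj, ← Complex.exp_add]; simp
        refine Mt.Wm_commute_unitary (hg.fc _ hh) ?_ ?_ k s ε M
        · simp only [fc_conjTranspose, fc_mul, e, fc_one]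
        · simp only [fc_conjTranspose, fc_mul, mul_comm (Complex.exp _), e, fc_one]
    have hA := hs.mono hZ
    have e : h = (1 / 2 : ℂ) • (h + hᴴ) + (Complex.I / 2) • (Complex.I • (hᴴ - h)) := by
      rw [smul_smul, div_mul_eq_mul_div, Complex.I_mul_I]
      module
    rw [e, dG_add, dG_smul, dG_smul]
    refine ((H _ (hA.add hA.conjTranspose) (isHermitian_add_transpose_self h)).smul_right _).add_right
      ((H _ ((hA.conjTranspose.sub hA).smul _) ?_).smul_right _)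
    rw [IsHermitian, conjTranspose_smul, conjTranspose_sub, conjTranspose_conjTranspose,
      Complex.star_def, Complex.conj_I, neg_smul, ← smul_neg, neg_sub]
  · exact (commute_Wf (fun L hL hA => commute_dG_tp k (hs.commute (hA.fc _ hL) hZ)) s ε M _).symm
theorem Wm_commute_tp {O : Q.Op d} (hs : Supp Z O) (hO : O.PosSemidef) (hZ : Z ⊆ A ∨ Disjoint Z A)
    (k : ℕ) (s ε M : ℝ) : Commute (Wm d k A s ε M) (tp k O) :=
  commute_tp_of_dG hO fun _ => Wm_commute_dG (hs.fc _ hO.1) hZ k s ε M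
theorem Wm_commute_Wf (hA : A' ⊆ A ∨ Disjoint A' A) (k : ℕ) (s ε M s' ε' M' : ℝ)
    (f : Q.Op d → ℂ) : Commute (Wm d k A s ε M) (Wf k A' s' ε' M' f) :=
  commute_Wf (fun L hL h => Wm_commute_tp (h.fc _ hL) (ee_posDef L).posSemidef hA k s ε M) _ _ _ f

end Crest.Agent.N336.R
end

-- ▼ part N336/R/Met

/-! # Row 336, replica package: the metrics -/

set_option autoImplicit false
set_option linter.unusedSectionVars false

open Matrix Finset MeasureTheory Filter
open scoped ComplexOrder MatrixOrder Matrix.Norms.L2Operator InnerProductSpace Topology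

namespace Crest.Agent.N336.R

open Crest.Agent.N336.Q Crest.Agent.N336.Eng Crest.Agent.N336.C

variable {ι : Type} [Fintype ι] [DecidableEq ι] {d : ι → Type} [∀ x, Fintype (d x)]
  [∀ x, DecidableEq (d x)] [∀ x, Nonempty (d x)]

variable {k : ℕ} {A A' Z : Finset ι} {s ε M : ℝ}

lemma Mt.one_le_dim (X : Finset ι) : (1 : ℝ) ≤ dim d X := by exact_mod_cast dim_pos X

lemma Mt.le_ee {L : Q.Op d} (hL : Adm A M L) : Real.exp (-M) • (1 : Q.Op d) ≤ ee L := by
  rw [← Complex.coe_smul, ← fc_const _ L]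
  exact fr_le_fr (g := fun _ => Real.exp (-M)) fun i => Real.exp_le_exp.2
    (neg_le_of_abs_le ((abs_ev_le hL.1 i).trans ((norm_le_hs L).trans hL.2.2)))

lemma Mt.abs_trace_le {L : Q.Op d} (hL : Adm A M L) : |(trace L).re| ≤ M * dim d univ := by
  refine (Mt.abs_re_trace_le hL.1).trans ?_
  rw [card_cfg, mul_comm]
  exact mul_le_mul_of_nonneg_right hL.2.2 (Nat.cast_nonneg _)

lemma Mt.adm_zero (A : Finset ι) (hM : 0 ≤ M) : Adm A M (0 : Q.Op d) :=
  ⟨isHermitian_zero, Supp.zero' A, by simpa [hs] using hM⟩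

/-- lower bound with a constant independent of `k` -/
theorem Mt.exists_le_Wm (A : Finset ι) (s ε : ℝ) (hM : 0 < M) {δ : ℝ} (hδ : 0 < δ) :
    ∃ c : ℝ, 0 < c ∧ ∀ (k : ℕ) (L : Q.Op d), Adm A M L →
      (c * Real.exp (-(2 * δ * k)) * wt k A s ε L) • tp k (ee L) ≤ Wm d k A s ε M := by
  have hK := isCompact_closedBall (0 : Q.Vec (Cfg d × Cfg d)) M
  have h0 : 0 < 1 - Real.exp (-δ) := sub_pos.2 (Real.exp_lt_one_iff.2 (neg_neg_of_pos hδ))
  obtain ⟨η₁, hη₁, H₁⟩ := Metric.uniformContinuousOn_iff.1 (hK.uniformContinuousOn_of_continuous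
    (Mt.continuous_ee_LQ A).continuousOn) _ (mul_pos h0 (Real.exp_pos (-M)))
  obtain ⟨η₂, hη₂, H₂⟩ := Metric.uniformContinuousOn_iff.1 (hK.uniformContinuousOn_of_continuous
    (Mt.continuous_psi A s ε).continuousOn) _ hδ
  obtain ⟨η, hη, h1, h2, h3⟩ : ∃ η : ℝ, 0 < η ∧ η ≤ M ∧ 2 * η < η₁ ∧ 2 * η < η₂ :=
    ⟨min M (min η₁ η₂ / 3), by positivity, min_le_left _ _,
      by linarith [min_le_right M (min η₁ η₂ / 3), min_le_left η₁ η₂],
      by linarith [min_le_right M (min η₁ η₂ / 3), min_le_right η₁ η₂]⟩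
  refine ⟨(Measure.addHaar : Measure (Q.Vec (Cfg d × Cfg d))).real (Metric.closedBall 0 η),
    ENNReal.toReal_pos (Metric.measure_closedBall_pos _ _ hη).ne' measure_closedBall_lt_top.ne,
    fun k L hL => ?_⟩
  have hn : ‖Mt.vc L‖ ≤ M := (Mt.norm_vc L).trans_le hL.2.2
  have hq : 0 ≤ η / M := by positivity
  have hq1 : η / M ≤ 1 := (div_le_one hM).2 h1
  have hqM : η / M * M = η := div_mul_cancel₀ _ hM.ne'
  obtain ⟨N, hN⟩ : ∃ N, N = Metric.closedBall ((1 - η / M) • Mt.vc L) η := ⟨_, rfl⟩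
  have hNm : MeasurableSet N := hN ▸ Metric.isClosed_closedBall.measurableSet
  have hsub : N ⊆ Metric.closedBall 0 M := hN ▸ Metric.closedBall_subset_closedBall' (by
    rw [dist_zero_right, norm_smul, Real.norm_of_nonneg (by linarith)]
    nlinarith [mul_le_mul_of_nonneg_left hn (sub_nonneg.2 hq1)])
  have hd : ∀ G ∈ N, dist (Mt.vc L) G ≤ 2 * η := fun G hG => by
    have h4 := dist_triangle_right (Mt.vc L) G ((1 - η / M) • Mt.vc L)
    rw [dist_eq_norm (Mt.vc L) (_ • _), show Mt.vc L - (1 - η / M) • Mt.vc L = (η / M) • Mt.vc L by module,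
      norm_smul, Real.norm_of_nonneg hq] at h4
    have h5 : dist G ((1 - η / M) • Mt.vc L) ≤ η := by rw [hN] at hG; exact hG
    nlinarith [mul_le_mul_of_nonneg_left hn hq]
  have hv : (Measure.addHaar : Measure (Q.Vec (Cfg d × Cfg d))).real (Metric.closedBall 0 η) =
      (nu (Cfg d) M).real N := by
    rw [nu, measureReal_restrict_apply hNm, Set.inter_eq_left.2 hsub, hN, Measure.real,
      Measure.real, Measure.addHaar_closedBall_center _ (_ • _)]
  rw [hv, mul_assoc, mul_smul, ← integral_indicator_const _ hNm, Mt.Wm_eq]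
  refine integral_mono_mat ((integrable_const _).indicator hNm) (Mt.integrable_Wm k A s ε M)
    (Eventually.of_forall fun G => ?_)
  have hp := (tp_posSemidef k (ee_posDef (LQ A G)).posSemidef).smul (wt_pos k A s ε (LQ A G)).le
  by_cases hG : G ∈ N
  swap
  · rw [Set.indicator_of_notMem hG]; exact nonneg_iff_posSemidef.2 hp
  rw [Set.indicator_of_mem hG]
  have h4 := H₁ _ (mem_closedBall_zero_iff.2 hn) _ (hsub hG) ((hd G hG).trans_lt h2)
  have h5 := H₂ _ (mem_closedBall_zero_iff.2 hn) _ (hsub hG) ((hd G hG).trans_lt h3)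
  rw [Mt.LQ_vc hL.1 hL.2.1] at h4 h5
  have h6 : Real.exp (-δ) • ee L ≤ ee (LQ A G) := by
    have h7 := (le_norm_smul_one ((fr_isHermitian _ L).sub (fr_isHermitian _ (LQ A G)))).trans
      (Mt.rsmul_le_rsmul PosSemidef.one ((dist_eq_norm _ _).symm.trans_le h4.le))
    rw [mul_smul] at h7
    have h8 := h7.trans (Mt.rsmul_mono h0.le (Mt.le_ee hL))
    rw [sub_smul, one_smul] at h8
    exact (sub_le_sub_iff_left _).1 h8
  have h7 := tp_mono k ((ee_posDef L).posSemidef.smul (Real.exp_pos _).le) h6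
  rw [tp_rsmul] at h7
  refine le_trans ?_ (Mt.rsmul_mono (wt_pos k A s ε _).le h7)
  rw [smul_smul]
  refine Mt.rsmul_le_rsmul (tp_posSemidef k (ee_posDef L).posSemidef) ?_
  rw [wt, wt, ← Real.exp_nat_mul, ← Real.exp_add, ← Real.exp_add]
  have h8 := neg_lt_of_abs_lt ((Real.dist_eq _ _).symm.trans_lt h5)
  exact Real.exp_le_exp.2 (by nlinarith [mul_le_mul_of_nonneg_left h8.le (Nat.cast_nonneg k)])

theorem Wm_posDef (k : ℕ) (A : Finset ι) (s ε : ℝ) (hM : 0 < M) : (Wm d k A s ε M).PosDef := by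
  obtain ⟨c, hc, H⟩ := Mt.exists_le_Wm (d := d) A s ε hM one_pos
  exact posDef_of_le ((tp_posDef k (ee_posDef 0)).smul
    (mul_pos (mul_pos hc (Real.exp_pos _)) (wt_pos _ _ _ _ _))) (H k 0 (Mt.adm_zero A hM.le))

lemma Mt.ev_le_exp {δ : ℝ} (hδ : 0 < δ) (c : ℝ) : ∀ᶠ k : ℕ in atTop, c ≤ Real.exp (δ * k) :=
  (Real.tendsto_exp_atTop.comp (tendsto_natCast_atTop_atTop.const_mul_atTop hδ)).eventually_ge_atTop c

/-- lower bound by every admissible tensor power -/
theorem le_Wm (A : Finset ι) (_hs : 0 < s) (ε : ℝ) (hM : 0 < M) {δ : ℝ} (hδ : 0 < δ) :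
    ∀ᶠ k : ℕ in atTop, ∀ L : Q.Op d, Adm A M L →
      (Real.exp (-(δ * k)) * wt k A s ε L) • tp k (ee L) ≤ Wm d k A s ε M := by
  obtain ⟨c, hc, H⟩ := Mt.exists_le_Wm (d := d) A s ε hM (δ := δ / 3) (by positivity)
  filter_upwards [Mt.ev_le_exp (δ := δ / 3) (by positivity) c⁻¹] with k hk L hL
  refine le_trans (Mt.rsmul_le_rsmul (tp_posSemidef k (ee_posDef L).posSemidef)
    (mul_le_mul_of_nonneg_right ?_ (wt_pos _ _ _ _ _).le)) (H k L hL)
  rw [← inv_mul_le_iff₀ hc]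
  refine (mul_le_mul_of_nonneg_right hk (Real.exp_pos _).le).trans_eq ?_
  rw [← Real.exp_add]; congr 1; ring

/-- every admissible exponential is a multiple of a power of a state -/
theorem exists_state (hs : 0 < s) (hε : 0 ≤ ε) {L : Q.Op d} (hL : Adm A M L) :
    ∃ (ω : Q.Op d) (t : ℝ), ω.PosDef ∧ ω.trace = 1 ∧ 0 < t ∧ ee L = t • pw (mg A ω) s ∧
      ∀ k : ℕ, wt k A s ε L * t ^ k ≤ Real.exp (k * (ε * M * dim d univ)) := by
  have hH := Mt.isHermitian_rsmul hL.1 s⁻¹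
  have hτ := ee_posDef (s⁻¹ • L)
  have hS : Supp A (ee (s⁻¹ • L)) := (hL.2.1.smul (s⁻¹ : ℝ)).fc _ hH
  obtain ⟨T, hT⟩ : ∃ T, T = (trace (ee (s⁻¹ • L))).re := ⟨_, rfl⟩
  have hT0 : 0 < T := by
    rw [hT, re_trace_fr]
    exact Finset.sum_pos (fun _ _ => Real.exp_pos _) Finset.univ_nonempty
  have hTe : trace (ee (s⁻¹ • L)) = (T : ℂ) := by
    rw [hT, trace_eq_sum_ev hτ.1, Complex.ofReal_re]
  have hD := Mt.one_le_dim (d := d) Aᶜ
  have ht : 0 < T / dim d Aᶜ := by positivity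
  refine ⟨T⁻¹ • ee (s⁻¹ • L), (T / dim d Aᶜ) ^ s, hτ.smul (inv_pos.2 hT0), ?_,
    Real.rpow_pos_of_pos ht s, ?_, fun k => ?_⟩
  · rw [trace_smul, hTe, Complex.real_smul, ← Complex.ofReal_mul, inv_mul_cancel₀ hT0.ne']
    rfl
  · have e : mg A (T⁻¹ • ee (s⁻¹ • L)) = (T / dim d Aᶜ)⁻¹ • ee (s⁻¹ • L) := by
      rw [← Complex.coe_smul, mg_smul, hS.mg_eq, smul_smul, ← Complex.coe_smul (_ / _)⁻¹]
      congr 1; push_cast; rw [inv_div, div_eq_inv_mul]
    rw [e, pw_smul hτ (inv_pos.2 ht), pw_ee hH, smul_smul, smul_smul, ← Real.mul_rpow ht.le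
      (inv_pos.2 ht).le, mul_inv_cancel₀ ht.ne', mul_inv_cancel₀ hs.ne', Real.one_rpow, one_smul,
      one_smul]
  · rw [wt, Real.rpow_def_of_pos ht, ← Real.exp_nat_mul, ← Real.exp_add, ← mul_add]
    refine Real.exp_le_exp.2 (mul_le_mul_of_nonneg_left ?_ (Nat.cast_nonneg k))
    have h1 := mul_le_mul_of_nonneg_right (Real.log_le_sub_one_of_pos ht) hs.le
    have h2 : (trace L).re / dim d Aᶜ ≤ M * dim d univ :=
      (div_le_div_of_nonneg_right (le_abs_self _) (by linarith)).trans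
        ((div_le_self (abs_nonneg _) hD).trans (Mt.abs_trace_le hL))
    have h3 := mul_le_mul_of_nonneg_left h2 hε
    rw [psi, ← hT, sub_div, mul_div_assoc, mul_div_assoc]
    linarith

lemma Mt.nonneg_of_states {F : Type} [NormedAddCommGroup F] {Φ : Q.Op d → F} {m : ℝ}
    (h : ∀ ω : Q.Op d, ω.PosDef → ω.trace = 1 → ‖Φ ω‖ ≤ m) : 0 ≤ m := by
  obtain ⟨ω, -, h1, h2, -⟩ := exists_state (d := d) one_pos le_rfl (Mt.adm_zero ∅ le_rfl)
  exact (norm_nonneg _).trans (h ω h1 h2)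

/-- upper bound for linear images of the metric -/
theorem norm_map_Wm_le (A : Finset ι) (hs : 0 < s) (hε : 0 ≤ ε) (M : ℝ) {δ : ℝ} (hδ : 0 < δ) :
    ∀ᶠ k : ℕ in atTop, ∀ (F : Type) [NormedAddCommGroup F] [NormedSpace ℂ F] [CompleteSpace F]
      (Φ : Mk k (Cfg d) →L[ℂ] F) (m : ℝ),
      (∀ ω : Q.Op d, ω.PosDef → ω.trace = 1 → ‖Φ (tp k (pw (mg A ω) s))‖ ≤ m) →
      ‖Φ (Wm d k A s ε M)‖ ≤ Real.exp (k * (ε * M * dim d univ + δ)) * m := by
  filter_upwards [Mt.ev_le_exp hδ ((nu (Cfg d) M).real Set.univ)] with k hk F _ _ _ Φ m h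
  have hm := Mt.nonneg_of_states h
  rw [Wm, Wf, ← Φ.integral_comp_comm
    (integrable_Wf k A s ε M (f := fun _ => 1) continuous_const)]
  refine (norm_integral_le_of_norm_le_const
    (C := Real.exp (k * (ε * M * dim d univ)) * m) ?_).trans ?_
  · filter_upwards [ae_adm A M] with G hG
    obtain ⟨ω, t, h1, h2, h3, h4, h5⟩ := exists_state hs hε hG
    rw [h4, tp_rsmul, ← Complex.coe_smul, smul_smul, map_smul, norm_smul, one_mul,
      ← Complex.ofReal_mul, Complex.norm_real,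
      Real.norm_of_nonneg (mul_pos (wt_pos _ _ _ _ _) (pow_pos h3 k)).le]
    exact mul_le_mul (h5 k) (h ω h1 h2) (norm_nonneg _) (Real.exp_pos _).le
  · rw [mul_add, Real.exp_add, mul_right_comm, mul_comm (k : ℝ) δ]
    exact mul_le_mul_of_nonneg_right (mul_le_mul_of_nonneg_left hk (Real.exp_pos _).le) hm

lemma Mt.log_div_nonneg {D : ℝ} (hD : 1 ≤ D) (hε : 0 < ε) (hε1 : ε ≤ 1) : 0 ≤ Real.log (D / ε) :=
  Real.log_nonneg ((one_le_div hε).2 (hε1.trans hD))

lemma MM_pos {D : ℝ} (hD : 1 ≤ D) (hε : 0 < ε) (hε1 : ε ≤ 1) : 0 < MM D ε :=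
  mul_pos (by linarith) (by linarith [Mt.log_div_nonneg hD hε hε1])

lemma Mt.reg_posDef (A : Finset ι) {ω : Q.Op d} (hω : Dens ω) {e : ℝ} (he : 0 < e) :
    (mg A ω + e • (1 : Q.Op d)).PosDef :=
  PosDef.posSemidef_add (mg_posSemidef A hω.psd) (PosDef.one.smul he)

lemma Mt.norm_mg_le (A : Finset ι) {ω : Q.Op d} (hω : Dens ω) : ‖mg A ω‖ ≤ 1 := by
  have h := hω.red (sb A)
  refine (norm_emb_le _ _).trans ?_
  rw [← fc_id h.herm]
  exact norm_fc_le zero_le_one fun i => by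
    rw [Complex.norm_real, Real.norm_of_nonneg (ev_nonneg h.psd i)]; exact h.ev_le_one i

/-- regularised marginals are admissible and have almost maximal weight -/
theorem adm_reg (A : Finset ι) (hs : 0 < s) (hs1 : s ≤ 1) (hε : 0 < ε) (hε1 : ε ≤ 1)
    {ω : Q.Op d} (hω : Dens ω) {e e' : ℝ} (h1 : ε / dim d univ ≤ e) (h2 : e ≤ ε) (h3 : 0 ≤ e')
    (h4 : e' ≤ ε) :
    Adm A (MM (dim d univ) ε) (s • lg (mg A ω + e • (1 : Q.Op d))) ∧ ∀ k : ℕ,
      Real.exp (-(k * (ε * (MM (dim d univ) ε + 1) * dim d univ))) ≤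
        wt k A s e' (s • lg (mg A ω + e • (1 : Q.Op d))) := by
  have hD := Mt.one_le_dim (d := d) univ
  have hD' := Mt.one_le_dim (d := d) Aᶜ
  have h0 : 0 < ε / dim d univ := by positivity
  have he := h0.trans_le h1
  have hX := Mt.reg_posDef A hω he
  have hm := mg_posSemidef A hω.psd
  have hl := Mt.log_div_nonneg hD hε hε1
  have hA : Adm A (MM (dim d univ) ε) (s • lg (mg A ω + e • (1 : Q.Op d))) := by
    refine ⟨Mt.isHermitian_rsmul (fr_isHermitian _ _) s,
      (supp_lg ((supp_mg A ω).add ((Supp.one A).smul (e : ℂ))) hX.1).smul (s : ℂ), ?_⟩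
    have h5 : ‖lg (mg A ω + e • (1 : Q.Op d))‖ ≤ Real.log (dim d univ / ε) + 1 := by
      rw [lg, fr, fc_add_smul_one hm.1]
      refine norm_fc_le (by linarith) fun i => ?_
      have h6 := ev_nonneg hm i
      have h7 := (le_abs_self _).trans ((abs_ev_le hm.1 i).trans (Mt.norm_mg_le A hω))
      have h8 := Real.log_le_sub_one_of_pos (by linarith : 0 < ev (mg A ω) i + e)
      have h9 := Real.log_le_log h0 (by linarith : _ ≤ ev (mg A ω) i + e)
      rw [← inv_div, Real.log_inv] at h9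
      rw [Complex.norm_real, Real.norm_eq_abs, abs_le]
      constructor <;> linarith
    rw [hs_smul, abs_of_pos hs]
    refine (mul_le_of_le_one_left (hs_nonneg _) hs1).trans ((hs_le_norm _).trans ?_)
    rw [card_cfg]
    exact mul_le_mul (Real.sqrt_le_self_iff.2 (Or.inr hD)) h5 (norm_nonneg _) (by linarith)
  refine ⟨hA, fun k => Real.exp_le_exp.2 ?_⟩
  rw [← mul_neg]
  refine mul_le_mul_of_nonneg_left ?_ (Nat.cast_nonneg k)
  have h5 : (trace (mg A ω + e • (1 : Q.Op d))).re = dim d Aᶜ + e * dim d univ := by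
    rw [trace_add, trace_mg, hω.tr, trace_smul, trace_one, card_cfg]; simp
  have h6 := Mt.abs_trace_le hA
  have h7 := MM_pos hD hε hε1
  rw [psi, smul_smul, inv_mul_cancel₀ hs.ne', one_smul, ee_lg hX, h5, le_sub_comm,
    div_le_iff₀ (by linarith)]
  have h8 : -(e' * (trace (s • lg (mg A ω + e • (1 : Q.Op d)))).re) ≤
      ε * (MM (dim d univ) ε * dim d univ) := by
    rw [← mul_neg]
    exact (mul_le_mul_of_nonneg_left ((neg_le_abs _).trans h6) h3).trans
      (mul_le_mul_of_nonneg_right h4 (by positivity))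
  have h9 : s * (e * dim d univ) ≤ ε * dim d univ := (mul_le_of_le_one_left (by positivity)
    hs1).trans (mul_le_mul_of_nonneg_right h2 (by positivity))
  have h10 := le_mul_of_one_le_right
    (by positivity : 0 ≤ ε * (MM (dim d univ) ε + 1) * dim d univ) hD'
  linarith

lemma tendsto_eps_MM {D : ℝ} (hD : 1 ≤ D) :
    Tendsto (fun ε => ε * (MM D ε + 1) * D) (𝓝[>] 0) (𝓝 0) := by
  have hc : Continuous fun ε : ℝ => (D * (ε * Real.log D - ε * Real.log ε + ε) + ε) * D :=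
    ((continuous_const.mul (((continuous_id.mul continuous_const).sub
      Real.continuous_mul_log).add continuous_id)).add continuous_id).mul continuous_const
  refine ((hc.tendsto' 0 0 (by simp)).mono_left nhdsWithin_le_nhds).congr' ?_
  filter_upwards [self_mem_nhdsWithin] with ε hε
  rw [MM, Real.log_div (by linarith) (ne_of_gt hε)]
  ring
lemma Ev.and {p q : ℝ → ℕ → Prop} (h : Ev p) (h' : Ev q) : Ev fun ε k => p ε k ∧ q ε k :=
  (Eventually.and h h').mono fun _ h => h.1.and h.2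
lemma Ev.mono {p q : ℝ → ℕ → Prop} (h : Ev p) (h' : ∀ ε k, p ε k → q ε k) : Ev q :=
  Eventually.mono h fun ε h => h.mono (h' ε)
lemma Ev.all {α : Type*} [Finite α] {p : α → ℝ → ℕ → Prop} (h : ∀ a, Ev (p a)) :
    Ev fun ε k => ∀ a, p a ε k := (eventually_all.2 h).mono fun _ h => eventually_all.2 h
lemma Ev.exists {p : ℝ → ℕ → Prop} (h : Ev p) : ∃ ε k, p ε k :=
  (Eventually.exists h).imp fun _ h => h.exists
lemma ev_small {c : ℝ} (hc : 0 < c) (k₀ : ℕ) : Ev fun ε k => 0 < ε ∧ ε ≤ c ∧ k₀ ≤ k := by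
  filter_upwards [Ioc_mem_nhdsGT hc] with ε hε
  filter_upwards [eventually_ge_atTop k₀] with k hk using ⟨hε.1, hε.2, hk⟩
lemma Mt.eb_mem {D : ℝ} (hD : 1 ≤ D) (hε : 0 ≤ ε) (b : Bool) : ε / D ≤ eb D ε b ∧ eb D ε b ≤ ε := by
  have := div_le_self hε hD
  cases b <;> simp [eb, this]
lemma Mt.eb_nonneg {D : ℝ} (hD : 1 ≤ D) (hε : 0 ≤ ε) (b : Bool) : 0 ≤ eb D ε b :=
  (div_nonneg hε (by linarith)).trans (Mt.eb_mem hD hε b).1
/-- lower bound in the form used later -/
theorem ev_le_W (hs : 0 < s) (hs1 : s ≤ 1) {δ : ℝ} (hδ : 0 < δ) :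
    Ev fun ε k => ∀ (b b' : Bool) (A : Finset ι) (ω : Q.Op d), Dens ω →
      Real.exp (-(δ * k)) • tp k (pw (mg A ω + eb (dim d univ) ε b' • (1 : Q.Op d)) s) ≤
        W d s ε k b A := by
  have hD := Mt.one_le_dim (d := d) univ
  filter_upwards [Ioc_mem_nhdsGT one_pos, (tendsto_eps_MM hD).eventually_le_const (half_pos hδ)]
    with ε hε hε'
  filter_upwards [eventually_all.2 fun p : Bool × Finset ι => le_Wm (d := d) p.2 hs
    (eb (dim d univ) ε p.1) (MM_pos hD hε.1 hε.2) (half_pos hδ)] with k hk b b' A ω hω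
  have h1 := Mt.eb_mem hD hε.1.le b'
  obtain ⟨h2, h3⟩ := adm_reg A hs hs1 hε.1 hε.2 hω h1.1 h1.2 (Mt.eb_nonneg hD hε.1.le b)
    (Mt.eb_mem hD hε.1.le b).2
  have hX := Mt.reg_posDef A hω ((div_pos hε.1 (by linarith)).trans_le h1.1)
  refine le_trans ?_ (hk (b, A) _ h2)
  rw [ee_smul_lg hX]
  refine Mt.rsmul_le_rsmul (tp_posSemidef k (pw_posDef hX s).posSemidef)
    (le_trans ?_ (mul_le_mul_of_nonneg_left (h3 k) (Real.exp_pos _).le))
  rw [← Real.exp_add]
  exact Real.exp_le_exp.2 (by linarith [mul_le_mul_of_nonneg_left hε' (Nat.cast_nonneg k)])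
/-- upper bound in the form used later -/
theorem ev_norm_map_W (hs : 0 < s) {δ : ℝ} (hδ : 0 < δ) :
    Ev fun ε k => ∀ (b : Bool) (A : Finset ι) (F : Type) [NormedAddCommGroup F] [NormedSpace ℂ F]
      [CompleteSpace F] (Φ : Mk k (Cfg d) →L[ℂ] F) (m : ℝ),
      (∀ ω : Q.Op d, ω.PosDef → ω.trace = 1 → ‖Φ (tp k (pw (mg A ω) s))‖ ≤ m) →
      ‖Φ (W d s ε k b A)‖ ≤ Real.exp (δ * k) * m := by
  have hD := Mt.one_le_dim (d := d) univ
  filter_upwards [Ioc_mem_nhdsGT one_pos, (tendsto_eps_MM hD).eventually_le_const (half_pos hδ)]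
    with ε hε hε'
  filter_upwards [eventually_all.2 fun p : Bool × Finset ι => norm_map_Wm_le (d := d) p.2 hs
    (Mt.eb_nonneg hD hε.1.le p.1) (MM (dim d univ) ε) (half_pos hδ)] with k hk b A F _ _ _ Φ m h
  refine (hk (b, A) F Φ m h).trans (mul_le_mul_of_nonneg_right (Real.exp_le_exp.2 ?_)
    (Mt.nonneg_of_states h))
  have h1 := MM_pos hD hε.1 hε.2
  have h2 := mul_le_mul_of_nonneg_right (Mt.eb_mem hD hε.1.le b).2
    (by positivity : 0 ≤ MM (dim d univ) ε * dim d univ)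
  have h3 : 0 ≤ ε * dim d univ := by have := hε.1; positivity
  rw [mul_comm δ]
  exact mul_le_mul_of_nonneg_left (by linarith) (Nat.cast_nonneg k)

end Crest.Agent.N336.R
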